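import Vale.Agent.P014U.Gt.El
import Vale.Agent.P014U.St

/-! # P014U, row ELC -/

namespace Vale.Agent.P014U.Top

variable [Pp]

/-- **row ELC** -/
theorem elc : ELC := Gt.elc'

end Vale.Agent.P014U.Top
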