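import Vale.Agent.P014U.Gt.Mt
import Vale.Agent.P014T.St
import Vale.Agent.P014T.Lk.Ell

/-! # P014U, row ELC with the words unfolded -/

set_option linter.all false

open scoped Classical
open WeierstrassCurve NumberField Matrix

noncomputable section

namespace Vale.Agent.P014U.Gt

open Vale.Agent.P014T Vale.Agent.P014T.Lc Vale.Agent.P014T.Sm X4M.TE
open Vale.Agent.P014T.Top (El sI)
open Vale.Agent.P004F (hq)
open Vale.Agent.P004M.TE (Qb GQ)
open Vale.Agent.P022E.GW (Ov Fb)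
open Vale.Agent.P027M.S (Inert)

variable [Pp]

theorem elc' (A B : ℤ) (h : El A B) (p : ℕ) (hp : p.Prime) (h2 : p ≠ pp) :
    (al A B p = 0 → al A B (p ^ 2) = 0 → ∀ P, Ov p P → ∀ v : Fin 2 → ℤ_[pp],
      (∀ g, Inert P g → mt (hq h) g *ᵥ v = v) → v = 0) ∧
    (al A B p ^ 2 - al A B (p ^ 2) = p ∧ (∀ P, Ov p P → (∀ g, Inert P g → mt (hq h) g = 1) ∧
      ∀ φ, Fb p P φ → (mt (hq h) φ).trace = al A B p) ∨
    al A B p ^ 2 = al A B (p ^ 2) ∧ ∀ P, Ov p P → (∃ g, Inert P g ∧ mt (hq h) g ≠ 1) ∧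
      ∀ v : Fin 2 → ℤ_[pp], (∀ g, Inert P g → mt (hq h) g *ᵥ v = v) →
        ∀ φ, Fb p P φ → mt (hq h) φ *ᵥ v = (al A B p * p : ℤ) • v) := by
  have : Fact p.Prime := ⟨hp⟩
  obtain ⟨D, hm⟩ := ex_min (Wq (sI A B))
  obtain ⟨W, e⟩ := Lc.ex_int hm.1
  have k : Md (Wq W) A B D.u D.r D.s D.t := by
    have := Vc.ch_of D (Wq (sI A B))
    rwa [e, show Wq (sI A B) = ⟨0, 0, 0, A, B⟩ by ext <;> simp [sI]] at this
  rw [e] at hm
  have hΔ : W.Δ ≠ 0 := fun z => hq h (by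
    have := Md.disc k
    rw [map_Δ, z, map_zero, mul_zero] at this
    linear_combination -this / 16)
  have : (Wq W).IsElliptic := ⟨by simpa using hΔ⟩
  obtain ⟨a1, a2⟩ := lf_all W hΔ hm hp
  replace a2 := a2 0
  rw [Lk.lf_md k] at a1
  rw [zero_add, zero_add, pow_one, pow_zero, (Lf.lf_mul _).map_one, Lk.lf_md k, Lk.lf_md k,
    ← a1] at a2
  have p0 : (p : ℤ) ≠ 0 := Nat.cast_ne_zero.2 hp.ne_zero
  by_cases hb : (p : ℤ) ∣ W.Δ
  · rw [ep, if_pos hb] at a1 a2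
    rw [add_zero] at a1
    by_cases hc : (p : ℤ) ∣ W.c₄
    · have n := fun P (o : Ov p P) => no (hq h) k h2 o hΔ hm hb hc
      refine ⟨fun _ _ => n, .inr ⟨by rw [a2]; ring, fun P o => ⟨by_contra fun c => ?_,
        fun v i φ _ => by rw [n P o v i]; simp⟩⟩⟩
      push Not at c
      exact one_ne_zero (n P o 1 fun g k => by rw [c g k, one_mulVec])
    · refine ⟨fun z _ => ?_, .inr ⟨by rw [a2]; ring, fun P o => a1 ▸ mu (hq h) k h2 o hΔ hb hc⟩⟩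
      obtain ⟨P, o⟩ := P022K.GW.Pl.ex_ov hp
      have := (mult k o hΔ hb pp_prime h2 hc).1
      omega
  · rw [ep, if_neg hb] at a1 a2
    exact ⟨fun z z' => (p0 (by rw [z, z'] at a2; linarith)).elim,
      .inl ⟨by rw [a2]; ring, fun P o => a1 ▸ gd (hq h) k h2 o hb⟩⟩

end Vale.Agent.P014U.Gt
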