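import Vale.Agent.P014U.Gt.Vl

/-! # P014U, block GLT: unramified towers have nonsingular reduction on a semistable equation -/

set_option linter.all false

open scoped Classical
open WeierstrassCurve WeierstrassCurve.Affine P179W Polynomial

noncomputable section

namespace Vale.Agent.P014U.Gt

open Vale.Agent.P014T.Lc Vale.Agent.P014T.Vc

/-- a tower -/
def Tr {G : Type} [AddCommGroup G] (l : ℕ) (R : ℕ → G) : Prop :=
  R 0 = 0 ∧ ∀ n, l • R (n + 1) = R n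

theorem Tr.pw {G : Type} [AddCommGroup G] {l : ℕ} {R : ℕ → G} (h : Tr l R) (n k : ℕ) :
    l ^ k • R (n + k) = R n := by
  induction k with
  | zero => simp
  | succ k ih => rw [pow_succ, mul_smul, ← add_assoc, h.2, ih]

theorem Tr.tor {G : Type} [AddCommGroup G] {l : ℕ} {R : ℕ → G} (h : Tr l R) (n : ℕ) :
    l ^ n • R n = 0 := by simpa [h.1] using h.pw 0 n

theorem Tr.map {G G' : Type} [AddCommGroup G] [AddCommGroup G'] {l : ℕ} {R : ℕ → G} (h : Tr l R)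
    (f : G →+ G') : Tr l fun n => f (R n) :=
  ⟨by simp [h.1], fun n => by rw [← map_nsmul, h.2]⟩

theorem Tr.mem {G : Type} [AddCommGroup G] {l : ℕ} {R : ℕ → G} (h : Tr l R) {H : AddSubgroup G}
    {n k : ℕ} (e : R (n + (k + 1)) + R n ∈ H ∨ R (n + (k + 1)) - R n ∈ H) : R (n + (k + 1)) ∈ H := by
  obtain ⟨c, m⟩ : ∃ c : ℤ, (1 + l * c) • R (n + (k + 1)) ∈ H := by
    rw [← h.pw n (k + 1), ← natCast_zsmul] at e
    rcases e with e | e
    · exact ⟨l ^ k, by convert e using 1; push_cast; module⟩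
    · exact ⟨-l ^ k, by convert e using 1; push_cast; module⟩
  obtain ⟨a, b, q⟩ := (isCoprime_one_right.add_mul_left_right c (x := (l : ℤ))).pow_left
    (m := n + (k + 1))
  have := H.zsmul_mem m b
  rwa [smul_smul, eq_sub_of_add_eq' q, sub_smul, one_smul, mul_smul, ← Nat.cast_pow, natCast_zsmul,
    h.tor, smul_zero, sub_zero] at this

variable {K Γ : Type} [Field K] [LinearOrderedCommGroupWithZero Γ] {v : Valuation K Γ}

theorem pg {τ : ℕ → Γ} {π γ : Γ} {N : ℕ} (p0 : 0 < π) (hN : π ^ N < γ) (h1 : ∀ n, τ n ≤ 1)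
    (h2 : ∀ n m, γ < τ n → τ n < τ m → τ n ≤ π * τ m) :
    ∃ n m, n < m ∧ (τ n ≤ γ ∧ τ m ≤ γ ∨ γ < τ n ∧ τ n = τ m) := by
  obtain ⟨n, m, a, e⟩ := Set.finite_univ.exists_lt_map_eq_of_forall_mem
    (f := fun n => (γ < τ n, fun i : Fin (N + 1) => π ^ (i : ℕ) < τ n)) fun _ => Set.mem_univ _
  have k : ∀ n m, γ < τ n → (∀ i : Fin (N + 1), π ^ (i : ℕ) < τ m → π ^ (i : ℕ) < τ n) →
      ¬ τ n < τ m := fun n m a b c => by
    have : ∀ i ≤ N, ¬ π ^ i < τ n := fun i => by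
      induction i with
      | zero => exact fun _ => by simpa using h1 n
      | succ i ih =>
        refine fun j z => ih (by omega) (b ⟨i, by omega⟩ ?_)
        exact lt_of_mul_lt_mul_left (pow_succ' π i ▸ z.trans_le (h2 n m a c)) p0.le
    exact this N le_rfl (hN.trans a)
  obtain ⟨e1, e2⟩ := Prod.ext_iff.1 e
  refine ⟨n, m, a, (le_or_gt (τ n) γ).imp (fun c => ⟨c, not_lt.1 fun z => c.not_gt (e1.mpr z)⟩)
    fun c => ⟨c, le_antisymm (not_lt.1 (k m n (e1.mp c) fun i => (congrFun e2 i).mp))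
      (not_lt.1 (k n m c fun i => (congrFun e2 i).mpr))⟩⟩

/-- the curve -/
abbrev tt (b : K) : WeierstrassCurve K := ⟨1, 0, 0, 0, b⟩

variable {b : K}

theorem idn {x₁ y₁ x₂ y₂ l m : K} (e₁ : y₁ ^ 2 + x₁ * y₁ = x₁ ^ 3 + b)
    (e₂ : y₂ ^ 2 + x₂ * y₂ = x₂ ^ 3 + b) (hl : y₁ - y₂ = l * (x₁ - x₂))
    (hm : y₁ - (-y₂ - x₂) = m * (x₁ - x₂)) (hs : x₁ - x₂ ≠ 0) :
    (x₁ - x₂) ^ 2 * ((l ^ 2 + l - x₁ - x₂) + (m ^ 2 + m - x₁ - x₂)) =
      x₁ * x₂ + (x₁ * x₂ * (2 * (x₁ + x₂)) + 4 * b) ∧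
    (x₁ - x₂) ^ 2 * ((l ^ 2 + l - x₁ - x₂) * (m ^ 2 + m - x₁ - x₂)) =
      -b + ((x₁ * x₂) ^ 2 - b * (4 * (x₁ + x₂))) := by
  have p : (x₁ - x₂) ^ 2 * (l ^ 2 + l - x₁ - x₂) =
      2 * b + x₁ * x₂ * (x₁ + x₂) - (2 * y₁ * y₂ + y₁ * x₂ + y₂ * x₁) := by
    linear_combination e₁ + e₂ - (y₁ - y₂ + (l + 1) * (x₁ - x₂)) * hl
  have q : (x₁ - x₂) ^ 2 * (m ^ 2 + m - x₁ - x₂) =
      2 * b + x₁ * x₂ * (x₁ + x₂) + (2 * y₁ * y₂ + y₁ * x₂ + y₂ * x₁) + x₁ * x₂ := by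
    linear_combination e₁ + e₂ - (y₁ + y₂ + x₂ + (m + 1) * (x₁ - x₂)) * hm
  refine ⟨by linear_combination p + q, mul_left_cancel₀ (pow_ne_zero 2 hs) ?_⟩
  linear_combination (x₁ - x₂) ^ 2 * (m ^ 2 + m - x₁ - x₂) * p +
    (2 * b + x₁ * x₂ * (x₁ + x₂) - (2 * y₁ * y₂ + y₁ * x₂ + y₂ * x₁)) * q -
    (4 * (y₂ ^ 2 + x₂ * y₂) + x₂ ^ 2) * e₁ - (4 * (x₁ ^ 3 + b) + x₁ ^ 2) * e₂

variable (hc : CoeffIn (tt b) {z | v z ≤ 1}) (hb : v b < 1)
include hb

theorem tt_e0 {x y : K} {h : (tt b).toAffine.Nonsingular x y} (n : Point.some x y h ∉ E0 hc) :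
    v x < 1 := by
  obtain ⟨n1, n⟩ := not_or.1 n
  obtain ⟨n2, n3⟩ := not_or.1 n
  simp only [not_not] at n1 n2 n3
  have m : ∀ {a c : K}, v a ≤ 1 → v c < 1 → v (a * c) < 1 := fun a c => by
    rw [map_mul]; exact (mul_le_of_le_one_left' a).trans_lt c
  have := v.map_add_lt (v.map_add_lt (v.map_sub_lt (m n1 n2) (m (y_int hc h.1 n1) n3)) hb) hb
  rw [show _ + _ + _ = x ^ 3 by
    simp only [phi, psi]; linear_combination -2 * (equation_iff _ _).1 h.1, map_pow] at this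
  exact not_le.1 fun a => absurd this (not_lt.2 (one_le_pow₀ a))

theorem cl {x₁ y₁ x₂ y₂ : K} {h₁ : (tt b).toAffine.Nonsingular x₁ y₁}
    {h₂ : (tt b).toAffine.Nonsingular x₂ y₂} (b0 : 0 < v b) (a₁ : v x₁ < 1) (a₂ : v x₂ < 1)
    (k : v x₁ ^ 2 ≤ v b ∧ v x₂ ^ 2 ≤ v b ∨ v b < v x₁ ^ 2 ∧ v x₁ ^ 2 = v x₂ ^ 2) :
    Point.some _ _ h₁ + .some _ _ h₂ ∈ E0 hc ∨ Point.some _ _ h₁ - .some _ _ h₂ ∈ E0 hc := by
  by_cases c : x₁ = x₂
  · rcases (Point.X_eq_iff (h₁ := h₁) (h₂ := h₂)).1 c with e | e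
    exacts [.inr (sub_eq_zero.2 e ▸ zero_mem _), .inl (add_eq_zero_iff_eq_neg.2 e ▸ zero_mem _)]
  by_contra n
  obtain ⟨n1, n2⟩ := not_or.1 n
  rw [Point.add_of_X_ne c] at n1
  rw [sub_eq_add_neg, Point.neg_some, Point.add_of_X_ne c] at n2
  replace n1 := tt_e0 hc hb n1
  replace n2 := tt_e0 hc hb n2
  have c' := sub_ne_zero.2 c
  obtain ⟨i1, i2⟩ := idn (b := b) (x₁ := x₁) (x₂ := x₂) (y₁ := y₁) (y₂ := y₂)
    (by linear_combination (equation_iff _ _).1 h₁.1)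
    (by linear_combination (equation_iff _ _).1 h₂.1) (div_mul_cancel₀ _ c').symm
    (div_mul_cancel₀ _ c').symm c'
  simp only [addX, slope_of_X_ne c, negY, one_mul, sub_zero] at n1 n2
  generalize (y₁ - y₂) / (x₁ - x₂) = l at *
  generalize (y₁ - (-y₂ - x₂)) / (x₁ - x₂) = m at *
  generalize l ^ 2 + l - x₁ - x₂ = X at *
  generalize m ^ 2 + m - x₁ - x₂ = Y at *
  have s : ∀ i : ℕ, v (i * (x₁ + x₂)) < 1 := fun i => by
    rw [map_mul]
    exact (mul_le_of_le_one_left' (natCast_mem v.integer i)).trans_lt (v.map_add_lt a₁ a₂)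
  have d : ∀ {M : Γ} {z : K}, 0 < M → v x₁ ^ 2 ≤ M → v x₂ ^ 2 ≤ M → v z < 1 →
      v ((x₁ - x₂) ^ 2 * z) < M := fun {M z} p a c e => by
    rw [map_mul, map_pow]
    refine (mul_le_mul_left (c := M) ?_ _).trans_lt (mul_lt_of_lt_one_right p e)
    rcases le_max_iff.1 (v.map_sub x₁ x₂) with q | q
    exacts [(pow_le_pow_left' q 2).trans a, (pow_le_pow_left' q 2).trans c]
  rcases k with k | k
  · refine (d b0 k.1 k.2 (z := X * Y) (by
      rw [map_mul]; exact mul_lt_one_of_nonneg_of_lt_one_left zero_le' n1 n2.le)).ne ?_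
    rw [i2, v.map_add_eq_of_lt_left, v.map_neg]
    rw [v.map_neg]
    refine v.map_sub_lt ?_ ?_
    · rw [map_pow, map_mul, mul_pow]
      exact (mul_le_mul_left k.1 _).trans_lt (mul_lt_of_lt_one_right b0 (k.2.trans_lt hb))
    · rw [map_mul]; exact mul_lt_of_lt_one_right b0 (s 4)
  · have e : v (x₁ * x₂) = v x₁ ^ 2 := by rw [map_mul, ← sq_one k.2, sq]
    refine (d (b0.trans k.1) le_rfl k.2.ge (v.map_add_lt n1 n2)).ne ?_
    rw [i1, v.map_add_eq_of_lt_left, e]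
    refine v.map_add_lt ?_ ?_
    · rw [map_mul _ (x₁ * x₂)]
      exact mul_lt_of_lt_one_right (e ▸ b0.trans k.1) (s 2)
    · rw [e, map_mul]
      exact (mul_le_of_le_one_left' (ofNat_mem v.integer 4)).trans_lt k.1

theorem fin {U : Subfield K} {π : Γ} (un : ∀ a ∈ U, v a < 1 → v a ≤ π) (p0 : 0 < π) {N : ℕ}
    (hN : π ^ N < v b) {l : ℕ} {R : ℕ → (tt b).toAffine.Point} (T : Tr l R) {c : K} (c0 : c ≠ 0)
    (hU : ∀ n x y h, R n = .some x y h → c * (x - 72 * b) ∈ U) (n : ℕ) : R n ∈ E0 hc := by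
  by_contra z
  have b0 := (pow_pos p0 N).trans hN
  have k : ∀ i, R (n + i) ∉ E0 hc := fun i m => z (T.pw n i ▸ (E0 hc).nsmul_mem m _)
  have : ∀ i, ∃ x y h, R (n + i) = .some x y h := fun i => by
    have := k i
    generalize R (n + i) = Q at this
    rcases Q with _ | ⟨x, y, h⟩
    exacts [(this trivial).elim, ⟨x, y, h, rfl⟩]
  choose x y h e using this
  have a : ∀ i, v (x i) < 1 := fun i => tt_e0 hc hb (e i ▸ k i)
  have q : ∀ i, v b < v (x i) ^ 2 → v ((c * (x i - 72 * b)) ^ 2) = v c ^ 2 * v (x i) ^ 2 := by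
    intro i m
    rw [map_pow, map_mul, mul_pow, v.map_sub_eq_of_lt_left]
    rw [map_mul]
    exact (mul_le_of_le_one_left' (ofNat_mem v.integer 72)).trans_lt
      (m.trans_le (pow_le_of_le_one zero_le' (a i).le two_ne_zero))
  obtain ⟨i, j, ij, m⟩ := pg (τ := fun i => v (x i) ^ 2) p0 hN
    (fun i => pow_le_one₀ zero_le' (a i).le) fun i j m m' => by
      have p := b0.trans (m.trans m')
      have := un _ (U.div_mem (U.pow_mem (hU _ _ _ _ (e i)) 2) (U.pow_mem (hU _ _ _ _ (e j)) 2))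
      rw [map_div₀, q i m, q j (m.trans m'), mul_div_mul_left _ _
        (pow_ne_zero 2 (v.ne_zero_iff.2 c0)), div_lt_one₀ p, div_le_iff₀ p] at this
      exact this m'
  obtain ⟨d, rfl⟩ := Nat.exists_eq_add_of_lt ij
  have := cl hc hb (h₁ := h (i + d + 1)) (h₂ := h i) b0 (a _) (a _)
    (m.imp And.symm fun m => ⟨m.2 ▸ m.1, m.2.symm⟩)
  rw [← e, ← e, show n + (i + d + 1) = n + i + (d + 1) by ring] at this
  exact k (i + d + 1) (by simpa only [add_assoc] using T.mem this)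

omit hb

theorem ur {D j F : K} (e : F = j * D) (hj : v j ≤ 1) (h1 : 1 < v D → v D < v F)
    (h2 : v D < 1 → v F = 1) : v D = 1 := by
  have : v F ≤ v D := by rw [e, map_mul]; exact mul_le_of_le_one_left' hj
  exact le_antisymm (not_lt.1 fun c => (h1 c).not_ge this) (not_lt.1 fun c =>
    (this.trans_lt c).ne (h2 c))

variable [IsAlgClosed K] [CharZero K]

theorem ex_gd {j : K} (hj : v j ≤ 1) : ∃ V : WeierstrassCurve K, CoeffIn V {z | v z ≤ 1} ∧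
    v V.Δ = 1 ∧ V.c₄ ^ 3 = j * V.Δ := by
  have n : ∀ i : ℕ, v i ≤ 1 := fun i => natCast_mem v.integer i
  have r : ∀ {a : K} {i : ℕ}, v (a ^ (i + 1)) ≤ 1 → v a ≤ 1 := fun a =>
    (pow_le_one_iff (Nat.succ_ne_zero _)).1 (map_pow v _ _ ▸ a)
  by_cases h : v 3 = 1
  · obtain ⟨D, e⟩ := IsAlgClosed.exists_root (k := K) ((X + C 27) * (X + C 3) ^ 3 - C j * X)
      (by rw [show degree _ = (4 : ℕ) by compute_degree!]; norm_num)
    simp only [IsRoot.def, eval_mul, eval_add, eval_sub, eval_pow, eval_C, eval_X, sub_eq_zero] at e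
    have h' : v 27 = 1 := by rw [show (27 : K) = 3 ^ 3 by norm_num, map_pow, h, one_pow]
    have d := ur e hj (fun c => by
      rw [map_mul, map_pow, v.map_add_eq_of_lt_left (h' ▸ c), v.map_add_eq_of_lt_left (h ▸ c)]
      exact lt_mul_of_one_lt_right (zero_lt_one.trans c) (one_lt_pow₀ c three_ne_zero)) fun c => by
      rw [map_mul, map_pow, v.map_add_eq_of_lt_right (h' ▸ c), v.map_add_eq_of_lt_right (h ▸ c), h,
        h', one_pow, one_mul]
    obtain ⟨a, q⟩ := IsAlgClosed.exists_pow_nat_eq (D + 27) three_pos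
    have i := r (a := a) (i := 2) (q ▸ v.map_add_le d.le h'.le)
    obtain rfl : D = a ^ 3 - 27 := by rw [q]; ring
    refine ⟨⟨a, 0, 1, 0, 0⟩, ⟨i, by simp,
      v.map_one.le, by simp, by simp⟩, ?_, ?_⟩ <;> simp only [Δ, c₄, b₂, b₄, b₆, b₈]
    · rw [← d]; congr 1; ring
    · linear_combination e
  · have h2 : v 2 = 1 := by
      rw [show (2 : K) = -(1 - 3) by norm_num, v.map_neg,
        v.map_one_sub_of_lt (x := 3) (lt_of_le_of_ne (n 3) h)]
    have h' : ∀ (i : ℕ) (z : K), v (2 ^ i * z) = v z := fun i z => by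
      rw [map_mul, map_pow, h2, one_pow, one_mul]
    obtain ⟨D, e⟩ := IsAlgClosed.exists_root (k := K) (C (2 ^ 8) * (X + C 1) ^ 3 - C j * X)
      (by rw [show degree _ = (3 : ℕ) by compute_degree!]; norm_num)
    simp only [IsRoot.def, eval_mul, eval_add, eval_sub, eval_pow, eval_C, eval_X, sub_eq_zero] at e
    have d := ur e hj (fun c => by
      rw [h', map_pow, v.map_add_eq_of_lt_left (v.map_one ▸ c)]
      exact lt_self_pow₀ c (by norm_num)) fun c => by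
      rw [h', map_pow, add_comm, v.map_one_add_of_lt c, one_pow]
    obtain ⟨a, q⟩ := IsAlgClosed.exists_pow_nat_eq (D + 4) two_pos
    have i := r (a := a) (i := 1) (q ▸ v.map_add_le d.le (n 4))
    obtain rfl : D = a ^ 2 - 4 := by rw [q]; ring
    refine ⟨⟨0, a, 0, 1, 0⟩, ⟨by simp, i, by simp,
      v.map_one.le, by simp⟩, ?_, ?_⟩ <;> simp only [Δ, c₄, b₂, b₄, b₆, b₈]
    · rw [← d, ← h' 4 (a ^ 2 - 4)]; congr 1; ring
    · linear_combination 16 * e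

theorem ex_tt {d : K} (hd : v d < 1) : ∃ b, v b = v d ∧ (tt b).Δ = d := by
  obtain ⟨β, e, q⟩ : ∃ β : K, β ^ 2 + β + 432 * d = 0 ∧ 1 ≤ v β := by
    obtain ⟨β, e⟩ := IsAlgClosed.exists_root (k := K) (X ^ 2 + X + C (432 * d))
      (by rw [show degree _ = (2 : ℕ) by compute_degree!]; norm_num)
    simp only [IsRoot.def, eval_add, eval_pow, eval_C, eval_X] at e
    by_cases c : v β < 1
    · exact ⟨-(1 + β), by linear_combination e, by rw [v.map_neg, v.map_one_add_of_lt c]⟩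
    · exact ⟨β, e, not_lt.1 c⟩
  have q' := le_antisymm (quad_le_one (a := 1) (b := -(432 * d)) v.map_one.le
    (by linear_combination e) (by
      rw [v.map_neg]; exact val_mul_le_one (ofNat_mem v.integer 432) hd.le)) q
  have : β ≠ 0 := fun c => by simp [c] at q'
  refine ⟨d / β, by rw [map_div₀, q', div_one], ?_⟩
  simp only [Δ, b₂, b₄, b₆, b₈]
  field_simp
  linear_combination -d * e

/-- **the semistable equation** -/
theorem ss {E : WeierstrassCurve K} (hE : CoeffIn E {z | v z ≤ 1}) {U : Subfield K} {π : Γ}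
    (un : ∀ a ∈ U, v a < 1 → v a ≤ π) (p0 : 0 < π) {N : ℕ} (hN : π ^ N < v E.Δ) (hU : CoeffIn E U)
    {l : ℕ} {R : ℕ → E.toAffine.Point} (T : Tr l R) (o : ∀ n, OnSet U (R n)) :
    ∃ (V : WeierstrassCurve K) (hc : CoeffIn V {z | v z ≤ 1}) (u r s t : K) (h : Ch V E u r s t),
      (v V.Δ = 1 ∨ v V.c₄ = 1) ∧ ∀ n, ∃ Q ∈ E0 hc, vm (RingHom.id K) h Q = R n := by
  have d0 : E.Δ ≠ 0 := v.pos_iff.1 ((pow_pos p0 N).trans hN)
  by_cases c : v (E.c₄ ^ 3 / E.Δ) ≤ 1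
  · obtain ⟨V, hc, a, e⟩ := ex_gd c
    obtain ⟨u, r, s, t, h⟩ := ex_ch (V := V) (fun z => by simp [z] at a) d0 (by rw [e]; field_simp)
    exact ⟨V, hc, u, r, s, t, h, .inl a, fun n => (vm_surj (f := RingHom.id K) (V := V) h
      Function.surjective_id (R n)).imp fun Q e => ⟨top1 hc a ▸ trivial, e⟩⟩
  have c0 : E.c₄ ≠ 0 := fun z => c (by simp [z])
  have c1 : 0 < v (E.c₄ ^ 3) := v.pos_iff.2 (pow_ne_zero 3 c0)
  rw [map_div₀, div_le_one₀ (v.pos_iff.2 d0), not_le, ← div_lt_one₀ c1, ← map_div₀] at c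
  obtain ⟨b, a, e⟩ := ex_tt c
  have e4 : (tt b).c₄ = 1 := by simp [c₄, b₂, b₄]
  obtain ⟨u, r, s, t, h⟩ := ex_ch (V := tt b) (e ▸ div_ne_zero d0 (pow_ne_zero 3 c0)) d0
    (by rw [e, e4]; field_simp)
  have hc : CoeffIn (tt b) {z | v z ≤ 1} :=
    ⟨v.map_one.le, by simp, by simp, by simp, (a.trans_lt c).le⟩
  choose S hS using fun n => vm_surj (f := RingHom.id K) (V := tt b) h Function.surjective_id (R n)
  refine ⟨_, hc, u, r, s, t, h, .inr (by rw [e4, map_one]), fun n => ⟨S n, fin hc (a.trans_lt c) un p0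
    (N := N) (hN.trans_le ?_) (l := l) ⟨vm_inj (f := RingHom.id K) (V := tt b) h ?_, fun n =>
      vm_inj (f := RingHom.id K) (V := tt b) h ?_⟩ (pow_ne_zero 2 h.ne) (fun n x y k q => ?_) n,
      hS n⟩⟩
  · rw [a, map_div₀, le_div_iff₀ c1]
    exact mul_le_of_le_one_right' (val_pow_le_one (b_int hE).2.2.2 3)
  · rw [hS, T.1, map_zero]
  · rw [map_nsmul, hS, hS, T.2]
  have m := o n
  rw [← hS, q] at m
  obtain ⟨i2, i4, i6, -⟩ := ch_inv h
  obtain ⟨c1, c2, c3, c4, c6⟩ := hU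
  change _ ∈ U at c1 c2 c3 c4 c6
  have : u ^ 2 * x + r + (E.c₆ / E.c₄ + E.b₂) / 12 ∈ U := by
    refine U.add_mem m.1 (U.div_mem ?_ (ofNat_mem U 12))
    simp only [c₆, c₄, b₂, b₄, b₆]
    apply_rules (maxDepth := 200) [add_mem, sub_mem, mul_mem, pow_mem, ofNat_mem, div_mem, neg_mem]
  convert this using 1
  have := h.ne
  rw [← i4, ← i6, eq_sub_of_add_eq i2.symm]
  simp only [c₆, c₄, b₂, b₄, b₆]
  field_simp
  ring

end Vale.Agent.P014U.Gt
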