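import Vale.Agent.P014T.Lc.Qp
import Vale.Agent.P014T.Ht.Vc

/-! # P014U, block GLT: changes of variables over a valued field -/

set_option linter.all false

open scoped Classical
open WeierstrassCurve WeierstrassCurve.Affine P179W

noncomputable section

namespace Vale.Agent.P014U.Gt

open Vale.Agent.P014T.Lc Vale.Agent.P014T.Vc

/-- the shifted equation -/
def sf {R : Type} [CommRing R] (V : WeierstrassCurve R) (r s t : R) : WeierstrassCurve R :=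
  ⟨V.a₁ + 2 * s, V.a₂ - s * V.a₁ + 3 * r - s ^ 2, V.a₃ + r * V.a₁ + 2 * t,
    V.a₄ - s * V.a₃ + 2 * r * V.a₂ - (t + r * s) * V.a₁ + 3 * r ^ 2 - 2 * s * t,
    V.a₆ + r * V.a₄ + r ^ 2 * V.a₂ + r ^ 3 - t * V.a₃ - t ^ 2 - r * t * V.a₁⟩

variable {K Γ : Type} [Field K] [LinearOrderedCommGroupWithZero Γ] {v : Valuation K Γ}
  {V V' W : WeierstrassCurve K} {u r s t u' r' s' t' w : K}

theorem ch_sf (V : WeierstrassCurve K) (r s t : K) : Ch (sf V r s t) V 1 r s t := by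
  refine ⟨one_ne_zero, ?_, ?_, ?_, ?_, ?_⟩ <;> simp only [sf, one_pow, one_mul]

theorem ch_tr (h' : Ch V' V u' r' s' t') (h : Ch V W u r s t) :
    Ch V' W (u * u') (u ^ 2 * r' + r) (u * s' + s) (u ^ 3 * t' + u ^ 2 * s * r' + t) :=
  ⟨mul_ne_zero h.ne h'.ne, by linear_combination u * h'.a1 + h.a1,
    by linear_combination u ^ 2 * h'.a2 + h.a2 - u * s' * h.a1,
    by linear_combination u ^ 3 * h'.a3 + h.a3 + u ^ 2 * r' * h.a1,
    by linear_combination u ^ 4 * h'.a4 + h.a4 - u * s' * h.a3 + 2 * u ^ 2 * r' * h.a2 -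
      u ^ 3 * (t' + r' * s') * h.a1,
    by linear_combination u ^ 6 * h'.a6 + h.a6 + u ^ 2 * r' * h.a4 + u ^ 4 * r' ^ 2 * h.a2 -
      u ^ 3 * t' * h.a3 - u ^ 5 * r' * t' * h.a1⟩

theorem ch_uq (h : Ch V W u r s t) (h' : Ch V' W u r s t) : V = V' := by
  ext
  exacts [mul_left_cancel₀ h.ne (h.a1.trans h'.a1.symm),
    mul_left_cancel₀ (pow_ne_zero _ h.ne) (h.a2.trans h'.a2.symm),
    mul_left_cancel₀ (pow_ne_zero _ h.ne) (h.a3.trans h'.a3.symm),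
    mul_left_cancel₀ (pow_ne_zero _ h.ne) (h.a4.trans h'.a4.symm),
    mul_left_cancel₀ (pow_ne_zero _ h.ne) (h.a6.trans h'.a6.symm)]

theorem ch_inv (h : Ch V W u r s t) : u ^ 2 * V.b₂ = W.b₂ + 12 * r ∧ u ^ 4 * V.c₄ = W.c₄ ∧
    u ^ 6 * V.c₆ = W.c₆ ∧ u ^ 12 * V.Δ = W.Δ := by
  have := h.ne
  rw [ch_uq h (ch_of ⟨Units.mk0 u h.ne, r, s, t⟩ W), variableChange_b₂, variableChange_c₄,
    variableChange_c₆, variableChange_Δ]
  simp only [Units.val_inv_eq_inv_val, Units.val_mk0]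
  refine ⟨?_, ?_, ?_, ?_⟩ <;> field_simp

theorem ex_ch [IsAlgClosed K] (hV : V.Δ ≠ 0) (hW : W.Δ ≠ 0) (e : V.c₄ ^ 3 * W.Δ = W.c₄ ^ 3 * V.Δ) :
    ∃ u r s t, Ch V W u r s t := by
  have : V.IsElliptic := ⟨hV.isUnit⟩
  have : W.IsElliptic := ⟨hW.isUnit⟩
  obtain ⟨C, rfl⟩ := exists_variableChange_of_j_eq W V (by
    simp only [j, Units.val_inv_eq_inv_val, coe_Δ']
    field_simp
    linear_combination -e)
  exact ⟨_, _, _, _, ch_of C W⟩

theorem sf_cf (hc : CoeffIn V {z | v z ≤ 1}) (a : v r ≤ 1) (b : v s ≤ 1) (c : v t ≤ 1) :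
    CoeffIn (sf V r s t) {z | v z ≤ 1} := by
  obtain ⟨c1, c2, c3, c4, c6⟩ := hc
  change _ ∈ v.integer at c1 c2 c3 c4 c6 a b c
  refine ⟨?_, ?_, ?_, ?_, ?_⟩ <;> change _ ∈ v.integer <;> simp only [sf] <;>
    apply_rules [add_mem, sub_mem, mul_mem, pow_mem, ofNat_mem]

theorem b_int (hc : CoeffIn V {z | v z ≤ 1}) : v V.b₄ ≤ 1 ∧ v V.b₆ ≤ 1 ∧ v V.b₈ ≤ 1 ∧
    v V.c₄ ≤ 1 := by
  obtain ⟨E, rfl⟩ := exists_int_model hc
  rw [map_b₄, map_b₆, map_b₈, map_c₄]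
  exact ⟨E.b₄.2, E.b₆.2, E.b₈.2, E.c₄.2⟩

theorem sf_int (hc : CoeffIn V {z | v z ≤ 1}) (hs : CoeffIn (sf V r s t) {z | v z ≤ 1}) :
    v r ≤ 1 ∧ v s ≤ 1 ∧ v t ≤ 1 := by
  obtain ⟨b4, b6, b8, -⟩ := b_int hc
  obtain ⟨-, d6, d8, -⟩ := b_int hs
  have a : v r ≤ 1 := not_lt.1 fun k => by
    have h2 : v r ≤ v r ^ 2 := le_self_pow₀ k.le two_ne_zero
    have m : ∀ {x y : K} {π : Γ}, v x ≤ 1 → v y ≤ π → v (x * y) ≤ π := fun a b => by
      simpa using val_mul_le a b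
    refine absurd (v.map_add_le (v.map_add_le (m b4 (map_pow v r 2).le)
      (m (v.map_add_le (v.map_add_le b6 b6) d6) h2))
      ((v.map_sub_le b8 d8).trans (k.le.trans h2))) (not_le.2 ?_)
    rw [show _ + _ + _ = r ^ 4 by simp only [sf, b₄, b₆, b₈]; ring, map_pow]
    exact pow_lt_pow_right₀ k (by norm_num)
  obtain ⟨c1, c2, c3, c4, c6⟩ := hc
  obtain ⟨-, d2, -, -, d6⟩ := hs
  change _ ∈ v.integer at c1 c2 c3 c4 c6 a d2 d6
  refine ⟨a, quad_le_one c1 (b := V.a₂ + 3 * r - (sf V r s t).a₂) (by rw [sf]; ring) ?_,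
    quad_le_one (a := V.a₃ + r * V.a₁)
      (b := V.a₆ + r * V.a₄ + r ^ 2 * V.a₂ + r ^ 3 - (sf V r s t).a₆) ?_ (by rw [sf]; ring) ?_⟩ <;>
    change _ ∈ v.integer <;> apply_rules [add_mem, sub_mem, mul_mem, pow_mem, ofNat_mem]

theorem ch_int (hV : CoeffIn V {z | v z ≤ 1}) (hW : CoeffIn W {z | v z ≤ 1}) (h : Ch V W u r s t)
    (hu : v u ≤ 1) : v r ≤ 1 ∧ v s ≤ 1 ∧ v t ≤ 1 := by
  obtain ⟨c1, c2, c3, c4, c6⟩ := hV
  have m : ∀ {a b : K} (i : ℕ), v a ≤ 1 → u ^ i * a = b → v b ≤ 1 := fun i a b =>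
    b ▸ val_mul_le_one (val_pow_le_one hu i) a
  exact sf_int hW ⟨m 1 c1 (by rw [pow_one]; exact h.a1), m 2 c2 h.a2, m 3 c3 h.a3, m 4 c4 h.a4,
    m 6 c6 h.a6⟩

theorem ch_e0 (hV : CoeffIn V {z | v z ≤ 1}) (hW : CoeffIn W {z | v z ≤ 1}) (h : Ch V W u r s t)
    (hu : v u = 1) {P : V.toAffine.Point} (m : P ∈ E0 hV) : vm (RingHom.id K) h P ∈ E0 hW := by
  obtain ⟨a, b, -⟩ := ch_int hV hW h hu.le
  rcases P with _ | ⟨x, y, k⟩
  · trivial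
  have e : ∀ (i : ℕ) (z : K), v (u ^ i * z) = v z := fun i z => by
    rw [map_mul, map_pow, hu, one_pow, one_mul]
  by_contra n
  obtain ⟨n1, n⟩ := not_or.1 n
  obtain ⟨n2, n3⟩ := not_or.1 n
  simp only [not_not, RingHom.id_apply] at n1 n2 n3
  have p1 : v (psi V x y) < 1 := by rwa [psi, h.dY, e] at n3
  rcases m with m | m | m
  · exact m (by simpa only [add_sub_cancel_right, e] using v.map_sub_le n1 a)
  · refine m ?_
    have := v.map_sub_lt n2 (y := s * (u ^ 3 * psi V x y))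
      (by rw [map_mul, e]; exact (mul_le_of_le_one_left' b).trans_lt p1)
    rwa [show _ - _ = u ^ 4 * phi V x y by
      simp only [phi, psi]; linear_combination -h.dX x y, e] at this
  · exact m p1

/-- the change of variables comes from an integral equation -/
def It (v : Valuation K Γ) (W : WeierstrassCurve K) (w r s t : K) : Prop :=
  ∃ V, CoeffIn V {z | v z ≤ 1} ∧ Ch V W w r s t

theorem It.iff (h : It v W w r s t) : It v W w r' s' t' ↔ v (r' - r) ≤ v w ^ 2 ∧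
    v (s' - s) ≤ v w ^ 1 ∧ v (t' - t - s * (r' - r)) ≤ v w ^ 3 := by
  obtain ⟨V, hc, h⟩ := h
  have := h.ne
  obtain ⟨a, rfl⟩ : ∃ a, r' = w ^ 2 * a + r := ⟨(r' - r) / w ^ 2, by field_simp; ring⟩
  obtain ⟨b, rfl⟩ : ∃ b, s' = w * b + s := ⟨(s' - s) / w, by field_simp; ring⟩
  obtain ⟨c, rfl⟩ : ∃ c, t' = w ^ 3 * c + w ^ 2 * s * a + t :=
    ⟨(t' - t - w ^ 2 * s * a) / w ^ 3, by field_simp; ring⟩
  have k := ch_tr (ch_sf V a b c) h
  have e : ∀ (i : ℕ) (z : K), v (w ^ i * z) ≤ v w ^ i ↔ v z ≤ 1 := fun i z => by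
    rw [map_mul, map_pow, mul_le_iff_le_one_right (pow_pos (v.pos_iff.2 this) i)]
  rw [mul_one] at k
  rw [add_sub_cancel_right, add_sub_cancel_right, show _ - t - _ = w ^ 3 * c by ring,
    show w * b = w ^ 1 * b by ring, e, e, e, pow_one]
  exact ⟨fun ⟨_, a, b⟩ => sf_int hc (ch_uq b k ▸ a), fun a => ⟨_, sf_cf hc a.1 a.2.1 a.2.2, k⟩⟩

theorem It.scale (h : It v W u r s t) (w0 : w ≠ 0) (k : v u ≤ v w) : It v W w r s t := by
  obtain ⟨V, ⟨c1, c2, c3, c4, c6⟩, h⟩ := h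
  obtain ⟨a, rfl⟩ : ∃ a, u = w * a := ⟨u / w, by field_simp⟩
  rw [map_mul, mul_le_iff_le_one_right (v.pos_iff.2 w0)] at k
  have m : ∀ {b : K} (i : ℕ), v b ≤ 1 → v (a ^ i * b) ≤ 1 := fun i b =>
    val_mul_le_one (val_pow_le_one k i) b
  exact ⟨⟨a ^ 1 * V.a₁, a ^ 2 * V.a₂, a ^ 3 * V.a₃, a ^ 4 * V.a₄, a ^ 6 * V.a₆⟩,
    ⟨m 1 c1, m 2 c2, m 3 c3, m 4 c4, m 6 c6⟩, w0, by linear_combination h.a1,
    by linear_combination h.a2, by linear_combination h.a3, by linear_combination h.a4,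
    by linear_combination h.a6⟩

theorem It.gal (h : It v W w r s t) (φ : K →+* K) (hφ : ∀ a, v a ≤ 1 → v (φ a) ≤ 1)
    (e : W.map φ = W) (e' : φ w = w) : It v W w (φ r) (φ s) (φ t) := by
  obtain ⟨V, ⟨c1, c2, c3, c4, c6⟩, h⟩ := h
  exact ⟨V.map φ, ⟨hφ _ c1, hφ _ c2, hφ _ c3, hφ _ c4, hφ _ c6⟩, by simpa only [e, e'] using h.map φ⟩

/-- **descent** -/
theorem It.desc {U : Subfield K} (hW : CoeffIn W {z | v z ≤ 1}) (hw : v w ≤ 1) (φ : K →+* K)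
    (hφ : ∀ a, v a ≤ 1 → v (φ a) ≤ 1) (e : W.map φ = W) (e' : φ w = w)
    (ds : ∀ k, ∀ x ∈ U, v x ≤ 1 → v (φ x - x) ≤ v w ^ k → ∃ n : ℤ, v (n - x) ≤ v w ^ k)
    (h : It v W w r s t) (a : r ∈ U) (b : s ∈ U) (c : t ∈ U) :
    ∃ n m k : ℤ, It v W w n m k := by
  have i : ∀ {r s t}, It v W w r s t → v r ≤ 1 ∧ v s ≤ 1 ∧ v t ≤ 1 := fun ⟨_, a, b⟩ =>
    ch_int a hW b hw
  obtain ⟨d1, d2, -⟩ := h.iff.1 (h.gal φ hφ e e')
  obtain ⟨n, hn⟩ := ds _ r a (i h).1 d1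
  obtain ⟨m, hm⟩ := ds _ s b (i h).2.1 d2
  have h' := (h.iff (t' := t + s * (n - r))).2 ⟨hn, hm, by simp⟩
  have d3 := (h'.iff.1 (h'.gal φ hφ e e')).2.2
  rw [map_intCast, sub_self, mul_zero, sub_zero] at d3
  obtain ⟨k, hk⟩ := ds _ _ (U.add_mem c (U.mul_mem b (U.sub_mem (intCast_mem U n) a))) (i h').2.2 d3
  exact ⟨n, m, k, h'.iff.2 ⟨by simp, by simp, by simpa using hk⟩⟩

section pts

variable (hc : CoeffIn V {z | v z ≤ 1})
include hc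

theorem tor0 {P : V.toAffine.Point} {n : ℕ} (hn : v n = 1) (e : n • P = 0) (k : KerV v P) :
    P = 0 := by
  have := v_nsmul hc k (hn ▸ zf_lt hc k)
  rw [e, hn, one_mul, zf_zero, map_zero] at this
  exact zf_eq_zero hc k ((map_eq_zero v).1 this.symm)

theorem top1 (h : v V.Δ = 1) : E0 hc = ⊤ := by
  obtain ⟨E₀, rfl⟩ := exists_int_model hc
  obtain ⟨R, _, r, h1, ha, hm, h0, -⟩ := exists_red v
  obtain ⟨ρ, hr, hρ⟩ := exists_rho h1 ha hm h0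
  refine e0_top hc (Eb := E₀.map ρ) ⟨h1, ha, hm, h0, (hr _).symm, (hr _).symm, (hr _).symm,
    (hr _).symm, (hr _).symm⟩ ?_
  rw [map_Δ] at h
  rw [map_Δ, Ne, hρ]
  exact h.not_lt

theorem sl {x₁ y₁ x₂ y₂ : K} (h₁ : V.toAffine.Nonsingular x₁ y₁) (h₂ : V.toAffine.Nonsingular x₂ y₂)
    (a₁ : v x₁ ≤ 1) (a₂ : v x₂ ≤ 1) (n : ¬ KerV v (Point.some _ _ h₁ + .some _ _ h₂)) :
    ∃ l h₃, v l ≤ 1 ∧ Point.some _ _ h₁ + .some _ _ h₂ =
      .some (V.toAffine.addX x₁ x₂ l) (V.toAffine.addY x₁ x₂ y₁ l) h₃ ∧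
      v (V.toAffine.addX x₁ x₂ l) ≤ 1 ∧ y₁ - y₂ = l * (x₁ - x₂) ∧
      l * (y₁ + y₂ + V.a₁ * x₂ + V.a₃) =
        x₁ ^ 2 + x₁ * x₂ + x₂ ^ 2 + V.a₂ * (x₁ + x₂) + V.a₄ - V.a₁ * y₁ := by
  have c : ¬ (x₁ = x₂ ∧ y₁ = V.toAffine.negY x₂ y₂) := fun c => n (by
    rw [Point.add_of_Y_eq c.1 c.2]; trivial)
  rw [Point.add_some c] at n ⊢
  replace n := not_not.1 n
  exact ⟨_, _, quad_le_one hc.1 (b := V.toAffine.addX x₁ x₂ (V.toAffine.slope x₁ x₂ y₁ y₂) + V.a₂ +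
    x₁ + x₂) (by rw [addX]; ring) (v.map_add_le (v.map_add_le (v.map_add_le n hc.2.1) a₁) a₂),
    rfl, n, slope_rel h₁.1 h₂.1 c⟩

theorem units {x y : K} {h : V.toAffine.Nonsingular x y} (m : Point.some x y h ∈ E0 hc) {n : ℕ}
    (hn : v n = 1) (e : n • Point.some x y h = 0) (h2 : 2 • Point.some x y h ≠ 0)
    (h3 : 3 • Point.some x y h ≠ 0) : v x ≤ 1 ∧ v (psi V x y) = 1 ∧ ∃ l, v l ≤ 1 ∧
      l * psi V x y = phi V x y ∧ v (V.toAffine.addX x x l - x) = 1 := by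
  have k : ∀ i : ℕ, i • Point.some x y h ≠ 0 → ¬ KerV v (i • Point.some x y h) := fun i a b =>
    a (tor0 hc hn (by rw [smul_comm, e, nsmul_zero]) b)
  have a : v x ≤ 1 := not_not.1 (mt (tor0 hc hn e) (Point.some_ne_zero h))
  obtain ⟨l, h', i, e2, a', -, hk⟩ := sl hc h h a a (two_nsmul (Point.some x y h) ▸ k 2 h2)
  replace hk : l * psi V x y = phi V x y := by simp only [phi, psi]; linear_combination hk
  obtain ⟨l', -, i', -, -, hl, -⟩ := sl hc h h' a a' (by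
    rw [← e2, ← two_nsmul, ← succ_nsmul']; exact k 3 h3)
  have p : v (psi V x y) = 1 := by
    have y1 := y_int hc h.1 a
    have p1 : v (psi V x y) ≤ 1 := by
      rw [psi, two_mul]
      exact v.map_add_le (v.map_add_le (v.map_add_le y1 y1) (val_mul_le_one hc.1 a)) hc.2.2.1
    refine p1.antisymm (not_lt.1 fun c => ?_)
    rcases m with m | m | m
    exacts [m a, m (by rw [← hk, map_mul]; exact (mul_le_of_le_one_left' i).trans_lt c), m c]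
  refine ⟨a, p, l, i, hk, (v.map_sub_le a' a).antisymm ?_⟩
  rw [← p, show psi V x y = -(l' + V.a₁ + l) * (V.toAffine.addX x x l - x) by
    rw [addY, negY, negAddY] at hl; rw [psi]; linear_combination hl, map_mul, v.map_neg]
  exact mul_le_of_le_one_left' (v.map_add_le (v.map_add_le i' hc.1) i)

/-- an unramified torsion point gives an unramified change of variables -/
theorem ex_it {U : Subfield K} (un : ∀ a ∈ U, v a < 1 → v a ≤ v w) (w0 : w ≠ 0)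
    (hU : CoeffIn W U) (h : Ch V W u r s t) (hu : v u < 1) {Q : V.toAffine.Point} (m : Q ∈ E0 hc)
    {n : ℕ} (hn : v n = 1) (e : n • Q = 0) (h2 : 2 • Q ≠ 0) (h3 : 3 • Q ≠ 0)
    (o : OnSet U (vm (RingHom.id K) h Q)) : ∃ r ∈ U, ∃ s ∈ U, ∃ t ∈ U, It v W w r s t := by
  rcases Q with _ | ⟨x, y, k⟩
  · exact (h2 (nsmul_zero 2)).elim
  obtain ⟨a, p, l, i, hk, q⟩ := units hc m hn e h2 h3
  obtain ⟨o1, o2⟩ : u ^ 2 * x + r ∈ U ∧ u ^ 3 * y + u ^ 2 * s * x + t ∈ U := o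
  obtain ⟨c1, c2, c3, c4, -⟩ := hU
  change _ ∈ U at c1 c2 c3 c4
  have u0 := h.ne
  have p0 : psi V x y ≠ 0 := fun c => by simp [c] at p
  have m1 : u ^ 3 * psi V x y ∈ U := by
    rw [psi, ← h.dY]; apply_rules [add_mem, mul_mem, ofNat_mem]
  have m2 : u * l + s ∈ U := by
    have : (u * l + s) * (u ^ 3 * psi V x y) ∈ U := by
      rw [show _ * _ = phi W (u ^ 2 * x + r) (u ^ 3 * y + u ^ 2 * s * x + t) by
        simp only [phi, psi] at hk ⊢; linear_combination h.dX x y + u ^ 4 * hk, phi]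
      apply_rules [add_mem, sub_mem, mul_mem, pow_mem, ofNat_mem]
    simpa only [mul_div_cancel_right₀ _ (mul_ne_zero (pow_ne_zero 3 u0) p0)] using U.div_mem this m1
  have m3 : u ^ 2 * (V.toAffine.addX x x l - x) ∈ U := by
    rw [show _ * _ = W.toAffine.addX (u ^ 2 * x + r) (u ^ 2 * x + r) (u * l + s) - (u ^ 2 * x + r) by
      rw [h.addX]; ring, addX]
    apply_rules [add_mem, sub_mem, mul_mem, pow_mem]
  have := un _ (U.div_mem m1 m3)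
  rw [map_div₀, map_mul, map_mul, p, q, mul_one, mul_one, ← map_div₀,
    show u ^ 3 / u ^ 2 = u by field_simp] at this
  have g : ∀ (i : ℕ) {z : K}, v z ≤ 1 → v (u ^ i * z) ≤ v u ^ i := fun i z a => by
    rw [map_mul, map_pow]; exact mul_le_of_le_one_right' a
  refine ⟨_, o1, _, m2, _, o2, It.scale ((It.iff ⟨V, hc, h⟩).2 ⟨?_, ?_, ?_⟩) w0 (this hu)⟩
  · simpa using g 2 a
  · simpa using g 1 i
  · convert g 3 (y_int hc k.1 a) using 2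
    ring

end pts

end Vale.Agent.P014U.Gt
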