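import Vale.Agent.P014T.Gt.Gd
import Vale.Agent.P014U.Gt.Vl

/-! # P014U, block GLT: Frobenius on nodal cubics and on the curves over `𝔽₂` -/

set_option linter.all false

open scoped Classical
open WeierstrassCurve WeierstrassCurve.Affine P179W Polynomial

noncomputable section

namespace Vale.Agent.P014U.Gt

open Vale.Agent.P014T.Lc Vale.Agent.P014T.Vc Vale.Agent.P014T.Sm P004N.H169.LF
open Vale.Agent.P014T.Gt (IsF Fq dz)

variable {κ : Type} [Field κ] {V : WeierstrassCurve κ}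

namespace Nd

variable {α β : κ}

/-- the nodal cubic -/
abbrev nc (α β : κ) : WeierstrassCurve κ := ⟨-(α + β), -(α * β), 0, 0, 0⟩

/-- the multiplicative coordinate -/
def ps (α β : κ) : (nc α β).toAffine.Point → κ
  | .zero => 1
  | .some x y _ => (y - α * x) / (y - β * x)

theorem eqn {x y : κ} (h : (nc α β).toAffine.Nonsingular x y) :
    (y - α * x) * (y - β * x) = x ^ 3 ∧ x ≠ 0 := by
  obtain ⟨e, n⟩ := (nonsing_iff _ _).1 h
  rw [equation_iff] at e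
  refine ⟨by linear_combination e, ?_⟩
  rintro rfl
  obtain rfl : y = 0 := pow_eq_zero_iff two_ne_zero |>.1 (by linear_combination e)
  simp [phi, psi] at n

theorem ne {x y : κ} (h : (nc α β).toAffine.Nonsingular x y) : y - α * x ≠ 0 ∧ y - β * x ≠ 0 :=
  mul_ne_zero_iff.1 ((eqn h).1 ▸ pow_ne_zero 3 (eqn h).2)

theorem ps_add (P Q : (nc α β).toAffine.Point) : ps α β (P + Q) = ps α β P * ps α β Q := by
  rcases P with _ | ⟨x₁, y₁, h₁⟩
  · exact (congrArg _ (zero_add Q)).trans (one_mul _).symm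
  rcases Q with _ | ⟨x₂, y₂, h₂⟩
  · exact (mul_one _).symm
  obtain ⟨a₁, b₁⟩ := ne h₁
  obtain ⟨a₂, b₂⟩ := ne h₂
  by_cases n : x₁ = x₂ ∧ y₁ = (nc α β).toAffine.negY x₂ y₂
  · rw [Point.add_of_Y_eq n.1 n.2]
    change (1 : κ) = _ / _ * (_ / _)
    rw [div_mul_div_comm, eq_div_iff (mul_ne_zero b₁ b₂), n.1, n.2, negY]
    ring
  obtain ⟨hl, hk⟩ := slope_rel h₁.1 h₂.1 n
  have b₃ := (ne (nonsingular_add h₁ h₂ n)).2
  have e := (eqn h₁).1
  rw [Point.add_some n]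
  change _ / _ = _ / _ * (_ / _)
  rw [div_mul_div_comm, div_eq_div_iff b₃ (mul_ne_zero b₁ b₂)]
  simp only [addY, negY, negAddY, addX] at hl hk ⊢
  generalize (nc α β).toAffine.slope x₁ x₂ y₁ y₂ = l at hl hk
  obtain ⟨w, rfl⟩ : ∃ w, y₁ = l * x₁ + w := ⟨y₁ - l * x₁, by ring⟩
  obtain rfl : y₂ = l * x₂ + w := by linear_combination -hl
  have s2 : x₁ * x₂ + ((l - α) * (l - β) - x₁ - x₂) * (x₁ + x₂) = -w * (2 * l - α - β) := by
    linear_combination hk
  have s3 : x₁ * x₂ * ((l - α) * (l - β) - x₁ - x₂) = w ^ 2 := by linear_combination -e + x₁ * s2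
  linear_combination ((l - α) ^ 3 - (l - β) ^ 3) * s3 + w * ((l - α) ^ 2 - (l - β) ^ 2) * s2

theorem ps_ne (P : (nc α β).toAffine.Point) : ps α β P ≠ 0 := by
  rcases P with _ | ⟨x, y, h⟩
  · exact one_ne_zero
  · exact div_ne_zero (ne h).1 (ne h).2

theorem ps_smul (P : (nc α β).toAffine.Point) (n : ℕ) : ps α β (n • P) = ps α β P ^ n := by
  induction n with
  | zero => rw [zero_smul, pow_zero]; rfl
  | succ n ih => rw [succ_nsmul, ps_add, ih, pow_succ]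

theorem ps_one (h0 : α ≠ β) {P : (nc α β).toAffine.Point} (e : ps α β P = 1) : P = 0 := by
  rcases P with _ | ⟨x, y, h⟩
  · rfl
  · exact absurd (show (α - β) * x = 0 by linear_combination -(div_eq_one_iff_eq (ne h).2).1 e)
      (mul_ne_zero (sub_ne_zero.2 h0) (eqn h).2)

end Nd

open Nd in
/-- **Frobenius on a nodal cubic** -/
theorem nd_frob {p : ℕ} [Fact p.Prime] [CharP κ p] {α β : κ} (h0 : α ≠ β) (hV : V = nc α β)
    {F : V.toAffine.Point →+ V.toAffine.Point} (hF : IsF p F) (P : V.toAffine.Point) :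
    (α ^ p = α → β ^ p = β → F P = p • P) ∧ (α ^ p = β → β ^ p = α → F P = -(p • P)) := by
  subst hV
  rcases P with _ | ⟨x, y, h⟩
  · exact ⟨fun _ _ => (map_zero F).trans (nsmul_zero p).symm, fun _ _ => (map_zero F).trans
      (neg_eq_zero.2 (nsmul_zero p)).symm⟩
  obtain ⟨h', e⟩ := hF x y h
  have k : ps α β (p • Point.some x y h) = (y ^ p - α ^ p * x ^ p) / (y ^ p - β ^ p * x ^ p) := by
    rw [ps_smul, ← mul_pow, ← mul_pow, ← sub_pow_char, ← sub_pow_char, ← div_pow]; rfl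
  obtain ⟨a, b⟩ := ne h'
  refine ⟨fun s s' => sub_eq_zero.1 (ps_one h0 (mul_right_cancel₀ (ps_ne (p • Point.some x y h)) ?_)),
    fun s s' => eq_neg_of_add_eq_zero_left (ps_one h0 ?_)⟩
  · rw [← ps_add, sub_add_cancel, one_mul, e, k, s, s']; rfl
  · rw [ps_add, e, k, s, s']
    exact (div_mul_div_cancel₀ b).trans (div_self a)

theorem ad {x₁ y₁ x₂ y₂ l X Y : κ} (h₁ : V.toAffine.Nonsingular x₁ y₁)
    (h₂ : V.toAffine.Nonsingular x₂ y₂) (n : x₁ ≠ x₂) (hl : y₁ - y₂ = l * (x₁ - x₂))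
    (hX : V.toAffine.addX x₁ x₂ l = X) (hY : V.toAffine.addY x₁ x₂ y₁ l = Y) :
    ∃ h, Point.some _ _ h₁ + .some _ _ h₂ = .some X Y h := by
  obtain rfl : V.toAffine.slope x₁ x₂ y₁ y₂ = l := by
    rw [slope_of_X_ne n, div_eq_iff (sub_ne_zero.2 n), hl]
  subst hX hY
  exact ⟨_, Point.add_of_X_ne n⟩

theorem db {x y l X Y : κ} (h : V.toAffine.Nonsingular x y) (n : psi V x y ≠ 0)
    (hl : phi V x y = l * psi V x y) (hX : V.toAffine.addX x x l = X)
    (hY : V.toAffine.addY x x y l = Y) : ∃ h', (2 : ℤ) • Point.some _ _ h = .some X Y h' := by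
  have e : y - V.toAffine.negY x y = psi V x y := by rw [negY, psi]; ring
  have n' := sub_ne_zero.1 (e ▸ n)
  obtain rfl : V.toAffine.slope x x y y = l := by
    rw [slope_of_Y_ne rfl n', e, div_eq_iff n, ← hl, phi]
  subst hX hY
  exact ⟨_, (two_zsmul _).trans (Point.add_self_of_Y_ne n')⟩

/-- the abscissa -/
def xc : V.toAffine.Point → κ
  | .zero => 0
  | .some x _ _ => x

theorem ext0 [IsAlgClosed κ] (hΔ : V.Δ ≠ 0) {H : Type} [AddGroup H]
    (T : V.toAffine.Point →+ H) {g : κ[X]} (hg : g ≠ 0)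
    (h : ∀ x y k, g.eval x ≠ 0 → T (.some x y k) = 0) (P) : T P = 0 := by
  have : Infinite V.toAffine.Point := .of_surjective xc fun x => by
    obtain ⟨y, e⟩ := IsAlgClosed.exists_root (k := κ) (X ^ 2 + C (V.a₁ * x + V.a₃) * X -
      C (x ^ 3 + V.a₂ * x ^ 2 + V.a₄ * x + V.a₆))
      (by rw [show degree _ = (2 : ℕ) by compute_degree!]; norm_num)
    simp only [IsRoot.def, eval_mul, eval_add, eval_sub, eval_pow, eval_C, eval_X] at e
    exact ⟨.some x y (nonsing_of_Δ hΔ ((equation_iff _ _).2 (by linear_combination e))), rfl⟩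
  have f : (xc (V := V) ⁻¹' insert 0 {x | g.IsRoot x}).Finite :=
    ((finite_setOf_isRoot hg).insert 0).preimage' fun x _ => by
      by_cases c : ∃ y, V.toAffine.Nonsingular x y
      · obtain ⟨y, k⟩ := c
        refine (Set.toFinite {0, Point.some x y k, -Point.some x y k}).subset ?_
        rintro (_ | ⟨x', y', k'⟩) e
        exacts [.inl rfl, .inr (Point.X_eq_iff.1 e)]
      · refine (Set.finite_singleton 0).subset ?_
        rintro (_ | ⟨x', y', k'⟩) e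
        exacts [rfl, (c ⟨y', (e : x' = x) ▸ k'⟩).elim]
  have k : ∀ Q ∉ xc ⁻¹' insert 0 {x | g.IsRoot x}, T Q = 0 := by
    rintro (_ | ⟨x, y, k⟩) e
    exacts [map_zero T, h x y k fun c => e (.inr c)]
  obtain ⟨Q, m⟩ := (f.union (f.preimage (add_right_injective P).injOn)).exists_notMem
  have := k _ fun c => m (.inr c)
  rwa [map_add, k _ fun c => m (.inl c), add_zero] at this

section two

variable [CharP κ 2] {a d : κ} {F : V.toAffine.Point →+ V.toAffine.Point}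

theorem db1 (q : a ^ 2 = a) {x y : κ}
    (h : (⟨0, 0, 1, a, d⟩ : WeierstrassCurve κ).toAffine.Nonsingular x y) :
    ∃ h', (2 : ℤ) • Point.some _ _ h =
      .some (x ^ 4 + a) ((x ^ 2 + a) * (x + x ^ 4 + a) + y + 1) h' := by
  refine db h (l := x ^ 2 + a) ?_ ?_ ?_ ?_ <;>
    simp only [phi, psi, addX, addY, negY, negAddY] <;> grind

theorem s0 (hV : V = ⟨0, 0, 1, 0, 0⟩) (hF : IsF 2 F) (P) :
    F (F P) + (0 : ℤ) • F P + (2 : ℤ) • P = 0 := by
  subst hV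
  rcases P with _ | ⟨x, y, h⟩
  · simp [← Point.zero_def]
  obtain ⟨h1, e1⟩ := hF x y h
  obtain ⟨h2, e2⟩ := hF _ _ h1
  obtain ⟨h3, e3⟩ := db1 (by ring) h
  have e := (equation_iff _ _).1 h.1
  rw [zero_zsmul, add_zero, e1, e2, e3]
  refine Point.add_of_Y_eq ?_ ?_ <;> simp only [negY] at e ⊢ <;> grind

theorem s1 (hV : V = ⟨0, 0, 1, 1, d⟩) (hF : IsF 2 F) (P) :
    (d = 0 → F (F P) + (2 : ℤ) • F P + (2 : ℤ) • P = 0) ∧
    (d = 1 → F (F P) + (-2 : ℤ) • F P + (2 : ℤ) • P = 0) := by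
  subst hV
  rcases P with _ | ⟨x, y, h⟩
  · simp [← Point.zero_def]
  obtain ⟨h1, e1⟩ := hF x y h
  obtain ⟨h2, e2⟩ := hF _ _ h1
  obtain ⟨h3, e3⟩ := db1 (by ring) h
  obtain ⟨h4, e4⟩ := db1 (by ring) h1
  have e := (equation_iff _ _).1 h.1
  have k : d ^ 2 = d → ∃ h5, Point.some _ _ h2 + .some _ _ h3 =
      .some (x ^ 8 + 1) (x ^ 4 * (x ^ 8 + 1 + x ^ 4) + y ^ 4 + 1) h5 := fun q => by
    refine ad h2 h3 (l := x ^ 4) ?_ ?_ ?_ ?_ <;>
      simp only [addX, addY, negY, negAddY, Ne] at e ⊢ <;> grind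
  rw [neg_zsmul, add_right_comm, add_right_comm _ (-_), e1, e2, e3, e4]
  refine ⟨fun z => ?_, fun z => ?_⟩ <;> obtain ⟨h5, e5⟩ := k (by rw [z]; ring) <;> rw [e5]
  · refine Point.add_of_Y_eq ?_ ?_ <;> simp only [negY] at e ⊢ <;> grind
  · rw [add_neg_eq_zero, Point.some.injEq]
    simp only at e
    constructor <;> grind

theorem od [IsAlgClosed κ] (hV : V = ⟨1, a, 0, 0, 1⟩) {η : ℤ} (q : a = 0 ∧ η = 1 ∨ a = 1 ∧ η = -1)
    (hF : IsF 2 F) (P) : F (F P) + η • F P + (2 : ℤ) • P = 0 := by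
  subst hV
  have q' : a ^ 2 = a := by rcases q with q | q <;> rw [q.1] <;> ring
  have := ext0 (by simp only [Δ, b₂, b₄, b₆, b₈]; grind)
    (F.comp (F + η • AddMonoidHom.id _) + (2 : ℤ) • AddMonoidHom.id _) (g := X ^ 2 - X)
    (Monic.ne_zero (by monicity!)) (fun x y h n => ?_) P
  · simpa using this
  simp only [eval_sub, eval_pow, eval_X] at n
  obtain ⟨s, hs⟩ : ∃ s, s * x = 1 := ⟨_, inv_mul_cancel₀ fun c => n (by rw [c]; ring)⟩
  have e := (equation_iff _ _).1 h.1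
  obtain ⟨h1, e1⟩ := hF x y h
  obtain ⟨h2, e2⟩ : ∃ h2, η • Point.some x y h = .some x (y + a * x) h2 := by
    rcases q with ⟨rfl, rfl⟩ | ⟨rfl, rfl⟩
    · simp [h]
    · have z : (⟨1, 1, 0, 0, 1⟩ : WeierstrassCurve κ).toAffine.negY x y = y + 1 * x := by
        simp only [negY]; grind
      exact ⟨z ▸ (nonsingular_neg _ _).2 h, by rw [neg_one_zsmul, Point.neg_some]; simp only [z]⟩
  obtain ⟨h3, e3⟩ := ad h1 h2 (sub_ne_zero.1 n) (l := s * (y + 1) + x + 1 + a) (X := x + s)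
    (Y := (s * (y + 1) + x + 1 + a) * (x + s + x ^ 2) + y ^ 2 + (x + s))
    (by simp only at e; grind) (by simp only [addX] at e ⊢; grind)
    (by simp only [addX, addY, negY, negAddY] at e ⊢; grind)
  obtain ⟨h4, e4⟩ := hF _ _ h3
  obtain ⟨h5, e5⟩ := db h (l := x + y * s) (X := x ^ 2 + s ^ 2)
    (Y := (x + y * s) * (x ^ 2 + s ^ 2 + x) + y + (x ^ 2 + s ^ 2))
    (by simp only [psi]; grind) (by simp only [psi, phi]; grind) (by simp only [addX] at e ⊢; grind)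
    (by simp only [addX, addY, negY, negAddY] at e ⊢; grind)
  change F (F (.some x y h) + η • Point.some x y h) + (2 : ℤ) • Point.some x y h = 0
  rw [e1, e2, e3, e4, e5]
  refine Point.add_of_Y_eq ?_ ?_ <;> simp only [negY] at e ⊢ <;> grind

end two

variable {W : WeierstrassCurve ℤ} {p : ℕ}

theorem sf_map {R S : Type} [CommRing R] [CommRing S] (f : R →+* S) (W : WeierstrassCurve R)
    (r s t : R) : (sf W r s t).map f = sf (W.map f) (f r) (f s) (f t) := by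
  ext <;> simp [sf, map_ofNat]

theorem sf_inv (r s t : ℤ) : (sf W r s t).Δ = W.Δ ∧ (sf W r s t).c₄ = W.c₄ := by
  rw [show sf W r s t = (⟨1, r, s, t⟩ : VariableChange ℤ) • W by
    ext <;> simp [sf, variableChange_def], variableChange_Δ, variableChange_c₄]
  simp

theorem sf_np (hp : p.Prime) (r s t : ℤ) : np (sf W r s t) p = np W p := by
  have : Fact p.Prime := ⟨hp⟩
  rw [np, sf_map]
  exact Nat.card_congr (Equiv.ofBijective (vm (RingHom.id _) (V := sf _ _ _ _) (ch_sf _ _ _ _))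
    ⟨vm_inj _, vm_surj _ Function.surjective_id⟩)

theorem sf_md {a b u r s t : ℚ} (h : Md (Wq W) a b u r s t) (r' s' t' : ℤ) :
    ∃ u r s t, Md (Wq (sf W r' s' t')) a b u r s t :=
  ⟨_, _, _, _, by rw [Wq, sf_map]; exact ch_tr (ch_sf _ _ _ _) h⟩

theorem cn2 : ∀ a b c d e : ZMod 2, (⟨a, b, c, d, e⟩ : WeierstrassCurve (ZMod 2)).Δ ≠ 0 →
    ∃ r s t : ZMod 2, ∃ z ∈ ({(0, 1, 0, 0, 0, 2), (0, 1, 0, 1, 0, 4), (0, 1, 0, 1, 1, 0),
      (1, 0, 0, 0, 1, 3), (1, 0, 1, 0, 1, 1)} : Finset (ZMod 2 × ZMod 2 × ZMod 2 × ZMod 2 × ZMod 2 × ℕ)),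
      z = ((sf ⟨a, b, c, d, e⟩ r s t).a₁, (sf ⟨a, b, c, d, e⟩ r s t).a₃, (sf ⟨a, b, c, d, e⟩ r s t).a₂,
        (sf ⟨a, b, c, d, e⟩ r s t).a₄, (sf ⟨a, b, c, d, e⟩ r s t).a₆,
        (Finset.univ.filter fun z : ZMod 2 × ZMod 2 => z.2 ^ 2 + a * z.1 * z.2 + c * z.2 =
          z.1 ^ 3 + b * z.1 ^ 2 + d * z.1 + e).card) := by
  decide +kernel

theorem fq2 (hg : ¬ ((2 : ℕ) : ℤ) ∣ W.Δ) :
    ∃ r s t, Fq (sf W r s t) 2 1 (np W 2 - (2 : ℕ) - 1) (2 : ℕ) := by
  have d := dz hg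
  obtain ⟨r, s, t, z, m, e⟩ := cn2 W.a₁ W.a₂ W.a₃ W.a₄ W.a₆ d
  obtain ⟨r, rfl⟩ := ZMod.intCast_surjective r
  obtain ⟨s, rfl⟩ := ZMod.intCast_surjective s
  obtain ⟨t, rfl⟩ := ZMod.intCast_surjective t
  have c : (np W 2 : ℤ) = z.2.2.2.2.2 + 1 := by
    rw [np, card_point _ d, e, cnt, Nat.cast_succ, ← Fintype.card_subtype,
      ← Nat.card_eq_fintype_card]
    congr 2
    exact Nat.card_congr (Equiv.subtypeEquivRight fun z => by rw [equation_iff]; simp)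
  refine ⟨r, s, t, fun κ _ _ _ F hF R => ?_⟩
  have hV : (sf W r s t)⁄κ = WeierstrassCurve.map ⟨z.1, z.2.2.1, z.2.1, z.2.2.2.1, z.2.2.2.2.1⟩
      (ZMod.castHom dvd_rfl κ) := by
    change (sf W r s t).map (algebraMap ℤ κ) = _
    rw [e, RingHom.ext_int (algebraMap ℤ κ)
      ((ZMod.castHom dvd_rfl κ).comp (Int.castRingHom (ZMod 2))), ← WeierstrassCurve.map_map, sf_map]
    rfl
  rw [one_smul, c]
  simp only [Finset.mem_insert, Finset.mem_singleton] at m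
  rcases m with rfl | rfl | rfl | rfl | rfl
  · exact s0 (hV.trans (by ext <;> simp)) hF R
  · exact (s1 (hV.trans (by ext <;> simp)) hF R).1 rfl
  · exact (s1 (hV.trans (by ext <;> simp)) hF R).2 rfl
  · exact od (hV.trans (by ext <;> simp)) (.inl ⟨rfl, rfl⟩) hF R
  · exact od (hV.trans (by ext <;> simp)) (.inr ⟨rfl, rfl⟩) hF R

theorem fq_nd [hp : Fact p.Prime] (k3 : (W.a₃ : ZMod p) = 0) (k4 : (W.a₄ : ZMod p) = 0)
    (k6 : (W.a₆ : ZMod p) = 0) (hc : ¬ (p : ℤ) ∣ W.c₄) :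
    ((p : ℤ) - np W p = 1 ∨ (p : ℤ) - np W p = -1) ∧ Fq W p 0 1 (-((p - np W p) * p)) := by
  have z := ZMod.intCast_zmod_eq_zero_iff_dvd
  have S : Sg.Sing (W.map (Int.castRingHom (ZMod p))) 0 0 := ⟨by simp [k6], by simp [k4], by simp [k3]⟩
  have c := S.card
  have c4 : (W.map (Int.castRingHom (ZMod p))).c₄ ≠ 0 := (W.map_c₄ _).trans_ne (mt (z _ p).1 hc)
  rw [Nat.card_zmod] at c
  have H : (p : ℤ) - np W p = 1 ∧ (∃ m : ℤ, (p : ℤ) ∣ m ^ 2 + W.a₁ * m - W.a₂) ∨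
      (p : ℤ) - np W p = -1 ∧ ¬ ∃ m : ℤ, (p : ℤ) ∣ m ^ 2 + W.a₁ * m - W.a₂ := by
    refine (em _).imp (fun q => ⟨?_, q⟩) fun q => ⟨?_, q⟩
    · obtain ⟨m, e⟩ := q
      rw [S.card_two c4 (m := m) (by simpa [Sg.tc] using (z _ p).2 e)] at c
      rw [np]; omega
    · have : IsEmpty {m // Sg.tc (W.map (Int.castRingHom (ZMod p))) 0 m = 0} := ⟨fun ⟨m, e⟩ => by
        obtain ⟨m, rfl⟩ := ZMod.intCast_surjective m
        exact q ⟨m, (z _ p).1 (by simpa [Sg.tc] using e)⟩⟩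
      rw [Nat.card_of_isEmpty (α := {m // _})] at c
      rw [np]; omega
  refine ⟨H.imp And.left And.left, fun κ _ _ _ F hF R => ?_⟩
  have y := CharP.intCast_eq_zero_iff κ p
  have fr : ∀ n : ℤ, (n : κ) ^ p = n := map_intCast (frobenius κ p)
  have k : ∀ α : κ, α ^ 2 + W.a₁ * α - W.a₂ = 0 → (α ^ p = α → F R = p • R) ∧
      (α ^ p ≠ α → F R = -(p • R)) := fun α e => by
    have b : (-W.a₁ - α) ^ p = -W.a₁ - α ^ p := by
      rw [sub_pow_char, ← Int.cast_neg, fr]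
    have := nd_frob (α := α) (β := -W.a₁ - α) (fun c => c4 (by
      have : ((W.a₁ ^ 2 + 4 * W.a₂ : ℤ) : κ) = 0 := by
        push_cast; linear_combination (2 * α + W.a₁) * c - 4 * e
      have := (z _ p).2 ((y _).1 this)
      rw [S.c₄, b₂, mul_zero, add_zero]
      exact (pow_eq_zero_iff two_ne_zero).2 (by simpa using this))) (V := W⁄κ) (by
      ext
      exacts [show (W.a₁ : κ) = _ by ring, show (W.a₂ : κ) = _ by linear_combination -e,
        (y _).2 ((z _ p).1 k3), (y _).2 ((z _ p).1 k4), (y _).2 ((z _ p).1 k6)]) hF R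
    refine ⟨fun c => this.1 c (by rw [b, c]), fun c => ?_⟩
    have e' := congrArg (frobenius κ p) e
    simp only [map_sub, map_add, map_mul, map_pow, map_intCast, map_zero, frobenius_def] at e'
    have f : α ^ p = -W.a₁ - α := mul_left_cancel₀ (sub_ne_zero.2 c) (by linear_combination e' - e)
    exact this.2 f (by rw [b, f]; ring)
  rcases H with ⟨a, m, b⟩ | ⟨a, b⟩ <;> rw [a]
  · rw [(k m (by exact_mod_cast (y _).2 b)).1 (fr m)]; simp
  · obtain ⟨α, e⟩ := IsAlgClosed.exists_root (k := κ) (X ^ 2 + C (W.a₁ : κ) * X - C (W.a₂ : κ))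
      (by rw [show degree _ = (2 : ℕ) by compute_degree!]; norm_num)
    simp only [IsRoot.def, eval_mul, eval_add, eval_sub, eval_pow, eval_C, eval_X] at e
    rw [(k α e).2 fun c => ?_]
    · simp
    obtain ⟨m, rfl⟩ := (mem_bot_iff_intCast p κ).1 ((Subfield.mem_bot_iff_pow_eq_self κ p).2 c)
    exact b ⟨m, (y _).1 (by exact_mod_cast e)⟩

end Vale.Agent.P014U.Gt
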