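import Vale.Agent.P014U.Gt.Fn
import Vale.Agent.P014U.Gt.Fr
import Vale.Agent.P004F.Qx.Unv
import Vale.Agent.P022D.W.Tame

/-! # P014U, block GLT: inertia and Frobenius on the torsion of order prime to the prime -/

set_option linter.all false

open scoped Classical
open WeierstrassCurve WeierstrassCurve.Affine P179W NumberField

noncomputable section

namespace Vale.Agent.P014U.Gt

open Vale.Agent.P014T.Lc Vale.Agent.P014T.Vc Vale.Agent.P014T.Sm Vale.Agent.P004F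
open Vale.Agent.P014T.Gt (IsF Fq Wc ex_fq Wc_md Wc_nd)
open Vale.Agent.P004M.TE (Qb GQ Pt ga)
open Vale.Agent.P022.H443 (inP)
open Vale.Agent.P022E.GW (Ov Fb)
open Vale.Agent.P027M.S (Inert)
open Vale.Agent.P014 (act GlobalMinimal Pbar)

variable {W : WeierstrassCurve ℤ} {p : ℕ} {P : Ideal (𝓞 Qb)} {O : ValuationSubring Qb}

/-- the inertia field -/
abbrev UU (P : Ideal (𝓞 Qb)) : Subfield Qb := (IntermediateField.fixedField (inP P)).toSubfield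

/-- the valuation of `P` -/
structure Lv (P : Ideal (𝓞 Qb)) (p : ℕ) (O : ValuationSubring Qb) : Prop where
  hp : p.Prime
  lt : ∀ n : ℤ, O.valuation n < 1 ↔ (p : ℤ) ∣ n
  un : ∀ a ∈ UU P, O.valuation a < 1 → O.valuation a ≤ O.valuation p
  fr : ∀ (g : GQ) (e : ℕ), e ≠ 0 → (∀ x : 𝓞 Qb, g • x - x ^ e ∈ P) → ∀ z,
    (O.valuation (g z) ≤ 1 ↔ O.valuation z ≤ 1) ∧
      (O.valuation z ≤ 1 → O.valuation (g z - z ^ e) < 1)

theorem ex_lv (o : Ov p P) : ∃ O, Lv P p O := by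
  have hP := o.2.1
  obtain ⟨O, hO⟩ := Qx.Fg.ex_O hP (Qx.Fg.ne_bot o.1.ne_zero o.2.2)
  have p0 : (p : Qb) ≠ 0 := by exact_mod_cast o.1.ne_zero
  refine ⟨O, o.1, fun n => ?_, fun a ha k => ?_, fun g e he h4 z => ⟨?_, fun hx => ?_⟩⟩
  · rw [← Qx.Fg.int_mem hP o.1 o.2.2, ← hO.mem hP]; rfl
  · have := (hO.ip _).1 (Qx.unv p P o.1 hP o.2.2 a (fun g hg => ha ⟨g, hg⟩) ((hO.zp _).2 k))
    rwa [map_div₀, div_le_one₀ (zero_lt_iff.2 (O.valuation.ne_zero_iff.2 p0))] at this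
  · have d := Qx.Fg.Dc.of hP he h4
    rw [← hO.ip, ← hO.ip]
    exact ⟨fun k => by simpa using d.inv.ip k, d.ip⟩
  obtain ⟨s, t, h2, h3⟩ := (hO.ip z).2 hx
  have h6 : s ^ e ∉ P := fun h6 => h2 (hP.mem_of_pow_mem e h6)
  have h5 : g • s ∉ P := fun h7 => h6 (by simpa using P.sub_mem h7 (h4 s))
  refine (hO.zp _).1 ⟨s ^ e * g • s, s ^ e * (g • t - t ^ e) - t ^ e * (g • s - s ^ e),
    fun h7 => (hP.mem_or_mem h7).elim h6 h5,
    P.sub_mem (P.mul_mem_left _ (h4 t)) (P.mul_mem_left _ (h4 s)), ?_⟩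
  have h7 := congrArg g h3
  rw [map_mul] at h7
  change (s : Qb) ^ e * g s * (g z - z ^ e) = s ^ e * (g t - t ^ e) - t ^ e * (g s - s ^ e)
  rw [← h7, ← h3]
  ring

theorem iz (O : ValuationSubring Qb) (n : ℤ) : O.valuation n ≤ 1 :=
  (O.valuation_le_one_iff _).2 (intCast_mem O n)

theorem ea (n : ℤ) : algebraMap ℚ Qb (Int.castRingHom ℚ n) = n := map_intCast _ n

theorem cf (W : WeierstrassCurve ℤ) (O : ValuationSubring Qb) :
    CoeffIn ((Wq W)⁄Qb) {z | O.valuation z ≤ 1} :=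
  have va : ∀ n : ℤ, O.valuation (algebraMap ℚ Qb (Int.castRingHom ℚ n)) ≤ 1 := fun n =>
    (ea n).symm ▸ iz O n
  ⟨va _, va _, va _, va _, va _⟩

theorem cfu (W : WeierstrassCurve ℤ) (U : Subfield Qb) : CoeffIn ((Wq W)⁄Qb) U :=
  have va : ∀ n : ℤ, algebraMap ℚ Qb (Int.castRingHom ℚ n) ∈ U := fun n =>
    (ea n).symm ▸ intCast_mem U n
  ⟨va _, va _, va _, va _, va _⟩

theorem eΔ : ((Wq W)⁄Qb).Δ = W.Δ ∧ ((Wq W)⁄Qb).c₄ = W.c₄ := by
  simp [WeierstrassCurve.baseChange]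

namespace Lv

variable (H : Lv P p O)
include H

theorem p0 : (p : Qb) ≠ 0 := by exact_mod_cast H.hp.ne_zero

theorem p1 : O.valuation p < 1 := by simpa using (H.lt p).2 dvd_rfl

theorem one {n : ℤ} (k : ¬ (p : ℤ) ∣ n) : O.valuation n = 1 :=
  le_antisymm (iz O n) (not_lt.1 (mt (H.lt n).1 k))

theorem one' {n : ℕ} (k : ¬ p ∣ n) : O.valuation n = 1 := by
  simpa using H.one (mt Int.natCast_dvd_natCast.1 k)

theorem dv (n : ℕ) : ∀ D : ℤ, O.valuation D ≤ O.valuation p ^ n → (p : ℤ) ^ n ∣ D := by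
  induction n with
  | zero => simp
  | succ n ih =>
    intro D h
    obtain ⟨D, rfl⟩ := ih D (h.trans (pow_le_pow_right_of_le_one' H.p1.le n.le_succ))
    rw [Int.cast_mul, map_mul, Int.cast_pow, map_pow, Int.cast_natCast, pow_succ,
      mul_le_mul_iff_right₀ (pow_pos (O.valuation.pos_iff.2 H.p0) _)] at h
    exact pow_succ (p : ℤ) n ▸ mul_dvd_mul_left _ ((H.lt D).1 (h.trans_lt H.p1))

theorem res {z : Qb} (hz : O.valuation z ≤ 1) (k : O.valuation (z ^ p - z) < 1) :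
    ∃ n : ℤ, O.valuation (z - n) < 1 := by
  have : Fact p.Prime := ⟨H.hp⟩
  have e : ∀ a : O, IsLocalRing.residue O a = 0 ↔ O.valuation a < 1 := fun a => by
    rw [IsLocalRing.residue_eq_zero_iff, ValuationSubring.valuation_lt_one_iff]
  have : CharP (IsLocalRing.ResidueField O) p := (CharP.charP_iff_prime_eq_zero H.hp).2 (by
    simpa using (e p).2 H.p1)
  lift z to O using (O.valuation_le_one_iff z).1 hz
  obtain ⟨n, q⟩ := (mem_bot_iff_intCast p _).1 ((Subfield.mem_bot_iff_pow_eq_self _ p).2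
    (show IsLocalRing.residue O z ^ p = _ by
      rw [← sub_eq_zero, ← map_pow, ← map_sub]; exact (e _).2 k))
  exact ⟨n, (e (z - n)).1 (by rw [map_sub, map_intCast, q, sub_self])⟩

theorem ds {φ : GQ} (f : Fb p P φ) (k : ℕ) : ∀ x ∈ UU P, O.valuation x ≤ 1 →
    O.valuation (φ x - x) ≤ O.valuation p ^ k → ∃ n : ℤ, O.valuation (n - x) ≤ O.valuation p ^ k := by
  induction k with
  | zero => exact fun x _ a _ => ⟨0, by simpa using a⟩
  | succ k ih =>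
    intro x m a b
    have p0 := H.p0
    obtain ⟨n, c⟩ := H.res a (by
      simpa using O.valuation.map_sub_lt (b.trans_lt (pow_lt_one₀ zero_le' H.p1 k.succ_ne_zero))
        ((H.fr φ p H.hp.ne_zero f x).2 a))
    replace m := (UU P).sub_mem m (intCast_mem _ n)
    replace c := H.un _ m c
    obtain ⟨y, rfl⟩ : ∃ y, x = n + p * y := ⟨(x - n) / p, by field_simp; ring⟩
    have q := O.valuation.pos_iff.2 p0
    rw [add_sub_cancel_left] at m c
    rw [map_mul, mul_le_iff_le_one_right q] at c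
    rw [map_add, map_mul, map_intCast, map_natCast, add_sub_add_left_eq_sub, ← mul_sub, map_mul,
      pow_succ', mul_le_mul_iff_right₀ q] at b
    obtain ⟨j, d⟩ := ih y (by simpa [p0] using (UU P).div_mem m (natCast_mem _ p)) c b
    refine ⟨n + p * j, ?_⟩
    rwa [Int.cast_add, Int.cast_mul, Int.cast_natCast, add_sub_add_left_eq_sub, ← mul_sub, map_mul,
      pow_succ', mul_le_mul_iff_right₀ q]

theorem nmin (hΔ : W.Δ ≠ 0) (hm : GlobalMinimal (Wq W)) {n m k : ℤ} :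
    ¬ It O.valuation ((Wq W)⁄Qb) p n m k := by
  rintro ⟨V, ⟨c1, c2, c3, c4, c6⟩, h⟩
  have e : sf ((Wq W)⁄Qb) n m k = (Wq (sf W n m k))⁄Qb := by
    simp only [WeierstrassCurve.baseChange, Wq, sf_map, ea]
  have d : ∀ (i : ℕ) {a : Qb} {z : ℤ}, O.valuation a ≤ 1 →
      (p : Qb) ^ i * a = algebraMap ℚ Qb (Int.castRingHom ℚ z) → ∃ c : ℤ, (p : ℚ) ^ i * c = z := by
    intro i a z b c
    obtain ⟨j, rfl⟩ := H.dv i z (by
      rw [← ea, ← c, map_mul, map_pow]; exact mul_le_of_le_one_right' b)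
    exact ⟨j, by push_cast; rfl⟩
  obtain ⟨m1, e1⟩ := d 1 c1 ((congrArg (· * _) (pow_one _)).trans (h.a1.trans (congrArg a₁ e)))
  obtain ⟨m2, e2⟩ := d 2 c2 (h.a2.trans (congrArg a₂ e))
  obtain ⟨m3, e3⟩ := d 3 c3 (h.a3.trans (congrArg a₃ e))
  obtain ⟨m4, e4⟩ := d 4 c4 (h.a4.trans (congrArg a₄ e))
  obtain ⟨m6, e6⟩ := d 6 c6 (h.a6.trans (congrArg a₆ e))
  have p0 : (p : ℚ) ≠ 0 := Nat.cast_ne_zero.2 H.hp.ne_zero
  simp only [sf, pow_one] at e1 e2 e3 e4 e6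
  push_cast at e1 e2 e3 e4 e6
  have c : Ch (Wq ⟨m1, m2, m3, m4, m6⟩) (Wq W) p n m k := ⟨p0, e1, e2, e3, e4, e6⟩
  have q := ch_uq c (ch_of ⟨Units.mk0 _ p0, n, m, k⟩ _)
  have := hm.2 _ ⟨⟨_, q.symm⟩⟩
  have z := (ch_inv c).2.2.2
  have z0 : (Wq W).Δ ≠ 0 := by simpa using hΔ
  rw [← q, ← z, abs_mul, mul_le_iff_le_one_left (abs_pos.2 (right_ne_zero_of_mul (z ▸ z0))),
    abs_pow, Nat.abs_cast] at this
  exact this.not_gt (one_lt_pow₀ (by exact_mod_cast H.hp.one_lt) (by norm_num))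

/-- **the reduction** -/
theorem ex_rd (W : WeierstrassCurve ℤ) : ∃ (κ : Type) (_ : Field κ) (_ : IsAlgClosed κ)
    (_ : CharP κ p) (rd : E0 (cf W O) →+ (W⁄κ).toAffine.Point),
    (∀ Q, rd Q = 0 → KerV O.valuation Q.1) ∧
    ∀ (g : GQ) (e : ℕ), e ≠ 0 → (∀ x : 𝓞 Qb, g • x - x ^ e ∈ P) → ∀ F, IsF e F →
      ∀ Q : E0 (cf W O), ∃ m, rd ⟨act _ g Q, m⟩ = F (rd Q) := by
  have hg := H.fr
  have hc := cf W O
  let κ := AlgebraicClosure (IsLocalRing.ResidueField O)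
  let ρ : O →+* κ := (algebraMap _ κ).comp (IsLocalRing.residue O)
  let r : Qb → κ := fun z => if h : z ∈ O then ρ ⟨z, h⟩ else 0
  have hr : ∀ z (h : O.valuation z ≤ 1), r z = ρ ⟨z, (O.valuation_le_one_iff z).1 h⟩ :=
    fun z h => dif_pos ((O.valuation_le_one_iff z).1 h)
  have r0 : ∀ z, O.valuation z ≤ 1 → (r z = 0 ↔ O.valuation z < 1) := by
    intro z hz
    rw [hr z hz, RingHom.comp_apply, map_eq_zero, IsLocalRing.residue_eq_zero_iff,
      ValuationSubring.valuation_lt_one_iff]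
  have ri : ∀ n : ℤ, r n = n := fun n => (hr _ (iz O n)).trans (map_intCast ρ n)
  have hp : CharP κ p := (CharP.charP_iff_prime_eq_zero H.hp).2 (by
    have := (r0 _ H.p1.le).2 H.p1
    rwa [← Int.cast_natCast, ri, Int.cast_natCast] at this)
  have ra : ∀ n : ℤ, algebraMap ℤ κ n = r (algebraMap ℚ Qb (Int.castRingHom ℚ n)) := fun n =>
    (ea n).symm ▸ (ri n).symm
  have R : Rd O.valuation r ((Wq W)⁄Qb) (W⁄κ) := ⟨by simpa using ri 1,
    fun a b ha hb => by rw [hr a ha, hr b hb, hr _ (O.valuation.map_add_le ha hb), ← map_add]; rfl,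
    fun a b ha hb => by rw [hr a ha, hr b hb, hr _ (val_mul_le_one ha hb), ← map_mul]; rfl,
    r0, ra _, ra _, ra _, ra _, ra _⟩
  obtain ⟨f, f0, f1⟩ := ex_red hc R
  refine ⟨κ, inferInstance, inferInstance, hp, f, fun Q => (f0 Q).1, fun g e he h4 F hF Q => ?_⟩
  have rg : ∀ z, O.valuation z ≤ 1 → r (g z) = r z ^ e := fun z hz => by
    obtain ⟨h5, h6⟩ := hg g e he h4 z
    have h7 := (r0 _ (h6 hz).le).2 (h6 hz)
    rw [hr _ (h6 hz).le] at h7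
    rw [hr _ (h5.2 hz), hr _ hz, ← map_pow, ← sub_eq_zero, ← map_sub]
    exact h7
  obtain ⟨_ | ⟨x, y, k⟩, m⟩ := Q
  · exact ⟨m, (map_zero f).trans ((map_zero F).symm.trans (congrArg F (map_zero f).symm))⟩
  by_cases hx : O.valuation x ≤ 1
  · have n := (P014T.Gt.Rd.ns hc R (k := k) hx).1 m
    obtain ⟨_, e1⟩ := f1 x y k hx n
    obtain ⟨n', e2⟩ := hF _ _ n
    simp only [← rg x hx, ← rg y (y_int hc k.1 hx)] at n' e2
    exact (f1 _ _ _ ((hg g e he h4 x).1.2 hx) n').imp fun _ e3 =>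
      e3.trans (e2.symm.trans (congrArg F e1.symm))
  · have k' : KerV O.valuation (act _ g (.some x y k)) := fun c => hx ((hg g e he h4 x).1.1 c)
    exact ⟨ns_ker k', ((f0 _).2 k').trans ((map_zero F).symm.trans
      (congrArg F ((f0 ⟨_, m⟩).2 hx).symm))⟩

/-- **inertia and Frobenius on the torsion with nonsingular reduction** -/
theorem tor {n : ℕ} (hn : ¬ p ∣ n) {Q : Pbar (Wq W)} (m : Q ∈ E0 (cf W O)) (e : n • Q = 0) :
    (∀ g, Inert P g → act _ g Q = Q) ∧ ∀ φ, Fb p P φ → ∀ a b c, Fq W p a b c →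
      a • act _ φ (act _ φ Q) + b • act _ φ Q + c • Q = 0 := by
  obtain ⟨κ, _, _, _, rd, i, K⟩ := H.ex_rd W
  have : Fact p.Prime := ⟨H.hp⟩
  refine ⟨fun g k => ?_, fun φ k a b c q => ?_⟩
  · obtain ⟨m', e'⟩ := K g 1 one_ne_zero (fun x => (pow_one x).symm ▸ k x) _ IsF.zero ⟨Q, m⟩
    refine sub_eq_zero.1 (tor0 (cf W O) (H.one' hn) ?_ (i (⟨_, m'⟩ - ⟨Q, m⟩) ?_))
    · change n • (act _ g Q - Q) = 0
      rw [nsmul_sub, ← map_nsmul, e, map_zero, sub_zero]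
    · rw [map_sub, e']; exact sub_self _
  · have f : IsF p (Point.map (W' := W) (frobenius κ p).toIntAlgHom) := fun x y h => ⟨_, rfl⟩
    obtain ⟨m1, e1⟩ := K φ p H.hp.ne_zero k _ f ⟨Q, m⟩
    obtain ⟨m2, e2⟩ := K φ p H.hp.ne_zero k _ f ⟨_, m1⟩
    refine tor0 (cf W O) (H.one' hn) ?_ (i (a • ⟨_, m2⟩ + b • ⟨_, m1⟩ + c • ⟨Q, m⟩) ?_)
    · change n • (a • act _ φ (act _ φ Q) + b • act _ φ Q + c • Q) = 0
      simp only [nsmul_add, smul_comm n, ← map_nsmul, e, map_zero, zsmul_zero, add_zero]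
    · rw [map_add, map_add, map_zsmul, map_zsmul, map_zsmul, e2, e1]
      exact q κ _ f _

variable (hΔ : W.Δ ≠ 0) {l : ℕ} {R : ℕ → Pbar (Wq W)} (T : Tr l R)
  (f : ∀ g, Inert P g → ∀ n, act _ g (R n) = R n) (hb : (p : ℤ) ∣ W.Δ)
include f

omit H in
theorem on (n : ℕ) : OnSet (UU P) (R n) := by
  have := fun g k => f g k n
  generalize R n = Q at this
  rcases Q with _ | ⟨x, y, h⟩
  · trivial
  exact ⟨fun g => (Point.some.inj (this g.1 g.2)).1, fun g => (Point.some.inj (this g.1 g.2)).2⟩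

include hΔ T hb

theorem st : ∃ (V : WeierstrassCurve Qb) (hc : CoeffIn V {z | O.valuation z ≤ 1}) (u r s t : Qb)
    (h : Ch V ((Wq W)⁄Qb) u r s t), (¬ (p : ℤ) ∣ W.c₄ → O.valuation u = 1) ∧
      ((p : ℤ) ∣ W.c₄ → O.valuation u < 1) ∧ ∀ n, ∃ Q ∈ E0 hc, vm (RingHom.id Qb) h Q = R n := by
  obtain ⟨V, hc, u, r, s, t, h, a, b⟩ := ss (cf W O) H.un (O.valuation.pos_iff.2 H.p0)
    (N := W.Δ.natAbs) (not_le.1 fun c => by
      have := Nat.le_of_dvd (Int.natAbs_pos.2 hΔ)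
        (Int.natCast_dvd.1 (by exact_mod_cast H.dv _ _ (eΔ.1 ▸ c)))
      exact this.not_gt (Nat.lt_pow_self H.hp.one_lt)) (cfu W _) T (on f)
  obtain ⟨-, i4, -, i12⟩ := ch_inv h
  replace i4 := congrArg O.valuation i4
  replace i12 := congrArg O.valuation i12
  rw [map_mul, map_pow, eΔ.2] at i4
  rw [map_mul, map_pow, eΔ.1] at i12
  have k : ∀ {i : ℕ} {z : ℤ}, O.valuation u ^ i * 1 = O.valuation z → (p : ℤ) ∣ z →
      O.valuation u < 1 := fun e d => not_le.1 fun c =>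
    ((H.lt _).2 d).not_ge ((one_le_pow₀ c).trans_eq ((mul_one _).symm.trans e))
  refine ⟨V, hc, u, r, s, t, h, fun c => ?_, fun c => a.elim (fun a => k (a ▸ i12) hb)
    fun a => k (a ▸ i4) c, b⟩
  rw [H.one c] at i4
  rcases a with a | a
  · exact absurd i4 ((mul_le_of_le_one_right' (b_int hc).2.2.2).trans_lt
      (pow_lt_one₀ zero_le' (k (a ▸ i12) hb) four_ne_zero)).ne
  · rwa [a, mul_one, pow_eq_one_iff_left four_ne_zero] at i4

theorem e0 (c : ¬ (p : ℤ) ∣ W.c₄) (n : ℕ) : R n ∈ E0 (cf W O) := by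
  obtain ⟨V, hc, u, r, s, t, h, a, -, b⟩ := H.st hΔ T f hb
  obtain ⟨Q, m, e⟩ := b n
  exact e ▸ ch_e0 hc _ h (a c) m

theorem zero (o : Ov p P) (hm : GlobalMinimal (Wq W)) (c : (p : ℤ) ∣ W.c₄) (hl : l.Prime)
    (lp : p ≠ l) (n : ℕ) : R n = 0 := by
  by_contra z
  obtain ⟨V, hc, u, r, s, t, h, -, a, b⟩ := H.st hΔ T f hb
  obtain ⟨Q, m, e⟩ := b (n + 1)
  have k : ∀ i : ℕ, i.Prime → i • Q ≠ 0 := fun i hi q => z (by
    replace q : i • R (n + 1) = 0 := by rw [← e, ← map_nsmul, q, map_zero]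
    by_cases j : i = l
    · rw [← T.2, ← j, q]
    have := Nat.dvd_gcd (addOrderOf_dvd_of_nsmul_eq_zero q) (addOrderOf_dvd_of_nsmul_eq_zero (T.tor _))
    rw [((Nat.coprime_primes hi hl).2 j).pow_right, Nat.dvd_one, AddMonoid.addOrderOf_eq_one_iff]
      at this
    rw [← T.2, this, nsmul_zero])
  obtain ⟨r, a1, s, a2, t, a3, i⟩ := ex_it hc H.un H.p0 (cfu W _) h (a c) m (n := l ^ (n + 1))
    (H.one' fun d => lp ((Nat.prime_dvd_prime_iff_eq H.hp hl).1 (H.hp.dvd_of_dvd_pow d)))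
    (vm_inj (f := RingHom.id Qb) (V := V) h (by rw [map_nsmul, e, T.tor, map_zero]))
    (k 2 Nat.prime_two) (k 3 Nat.prime_three) (e ▸ on f _)
  obtain ⟨φ, q⟩ := P022D.W.exists_phi o.1 o.2.1 o.2.2
  obtain ⟨n, m, k, j⟩ := i.desc (cf W O) H.p1.le (φ : Qb →+* Qb)
    (fun a => (H.fr φ p H.hp.ne_zero q a).1.2) (by
      ext <;> simp [WeierstrassCurve.baseChange]) (map_natCast _ p) (H.ds q) a1 a2 a3
  exact H.nmin hΔ hm j

end Lv

variable {A B : ℤ} {u r s t : ℚ} (h : Md (Wq W) A B u r s t) (o : Ov p P)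
include h o

theorem good0 (hg : ¬ (p : ℤ) ∣ W.Δ) {b : ℤ} (q : Fq W p 1 b p) {n : ℕ} (hn : ¬ p ∣ n) {Q : Pt A B}
    (e : n • Q = 0) : (∀ g, Inert P g → ga g Q = Q) ∧ ∀ φ, Fb p P φ →
      ga φ (ga φ Q) + b • ga φ Q + (p : ℤ) • Q = 0 := by
  obtain ⟨O, H⟩ := ex_lv o
  obtain ⟨Q, rfl⟩ := (iso h Qb).surjective Q
  obtain ⟨a, b⟩ := H.tor hn (Q := Q) (top1 (cf W O) (eΔ.1 ▸ H.one hg) ▸ trivial)
    ((iso h Qb).injective (by rw [map_nsmul, e, map_zero]))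
  refine ⟨fun g k => by rw [← iso_act, a g k], fun φ k => ?_⟩
  have := congrArg (iso h Qb) (b φ k _ _ _ q)
  rwa [one_smul, map_add, map_add, map_zsmul, map_zsmul, iso_act, iso_act, map_zero] at this

/-- **good reduction** -/
theorem good (hg : ¬ (p : ℤ) ∣ W.Δ) {n : ℕ} (hn : ¬ p ∣ n) {Q : Pt A B} (e : n • Q = 0) :
    (∀ g, Inert P g → ga g Q = Q) ∧ ∀ φ, Fb p P φ →
      ga φ (ga φ Q) + (np W p - p - 1 : ℤ) • ga φ Q + (p : ℤ) • Q = 0 := by
  by_cases h2 : p = 2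
  · subst h2
    obtain ⟨r', s', t', q⟩ := fq2 hg
    obtain ⟨u, r, s, t, h⟩ := sf_md h r' s' t'
    exact good0 h o (by rwa [(sf_inv _ _ _).1]) q hn e
  obtain ⟨c, q⟩ := ex_fq o.1 h2 hg
  obtain ⟨u, r, s, t, h⟩ := Wc_md h c
  exact good0 h o (Wc_nd o.1 h2 c hg) q hn e

variable (hΔ : W.Δ ≠ 0) (hb : (p : ℤ) ∣ W.Δ) {l : ℕ} (hl : l.Prime) (lp : p ≠ l)
include hΔ hb hl lp

/-- **multiplicative reduction** -/
theorem mult (hc : ¬ (p : ℤ) ∣ W.c₄) : ((p : ℤ) - np W p = 1 ∨ (p : ℤ) - np W p = -1) ∧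
    ∀ R : ℕ → Pt A B, Tr l R → (∀ g, Inert P g → ∀ n, ga g (R n) = R n) →
      ∀ φ, Fb p P φ → ∀ n, ga φ (R n) = (((p : ℤ) - np W p) * p) • R n := by
  have : Fact p.Prime := ⟨o.1⟩
  obtain ⟨x, y, S⟩ := Sg.ex_sing_p (W.map (Int.castRingHom (ZMod p)))
    ((W.map_Δ _).trans ((ZMod.intCast_zmod_eq_zero_iff_dvd _ p).2 hb))
  obtain ⟨x, rfl⟩ := ZMod.intCast_surjective x
  obtain ⟨y, rfl⟩ := ZMod.intCast_surjective y
  obtain ⟨e, f, g⟩ := S
  simp only [map_a₁, map_a₂, map_a₃, map_a₄, map_a₆, eq_intCast] at e f g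
  obtain ⟨i, j⟩ := sf_inv (W := W) x 0 y
  obtain ⟨a, q⟩ := fq_nd (W := sf W x 0 y) (p := p) (by rw [sf]; push_cast; linear_combination g)
    (by rw [sf]; push_cast; linear_combination -f) (by rw [sf]; push_cast; linear_combination -e)
    (j ▸ hc)
  rw [sf_np o.1] at a q
  refine ⟨a, fun R T k φ z n => ?_⟩
  obtain ⟨u, r, s, t, h⟩ := sf_md h x 0 y
  obtain ⟨O, H⟩ := ex_lv o
  have T' := T.map (iso h Qb).symm.toAddMonoidHom
  have := (H.tor (fun d => lp ((Nat.prime_dvd_prime_iff_eq H.hp hl).1 (H.hp.dvd_of_dvd_pow d)))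
    (H.e0 (i ▸ hΔ) T' (fun g m n => (iso h Qb).injective (by simp [iso_act, k g m])) (i ▸ hb)
      (j ▸ hc) n) (T'.tor n)).2 φ z _ _ _ q
  rw [zero_zsmul, zero_add, one_zsmul, neg_zsmul, add_neg_eq_zero] at this
  simpa [iso_act] using congrArg (iso h Qb) this

/-- **additive reduction** -/
theorem addv (hm : GlobalMinimal (Wq W)) (hc : (p : ℤ) ∣ W.c₄) {R : ℕ → Pt A B} (T : Tr l R)
    (k : ∀ g, Inert P g → ∀ n, ga g (R n) = R n) (n : ℕ) : R n = 0 := by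
  obtain ⟨O, H⟩ := ex_lv o
  simpa using H.zero hΔ (T.map (iso h Qb).symm.toAddMonoidHom)
    (fun g m n => (iso h Qb).injective (by simp [iso_act, k g m])) hb o hm hc hl lp n

end Vale.Agent.P014U.Gt
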