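import Vale.Agent.P014U.Gt.Lv
import Vale.Agent.P014U.X4M.TE.Tate

/-! # P014U, block GLT: the reduction type is seen by the representation (matrices) -/

set_option linter.all false

open scoped Classical
open WeierstrassCurve NumberField Matrix

noncomputable section

namespace Vale.Agent.P014U.Gt

open Vale.Agent.P014T.Lc Vale.Agent.P014T.Sm P027M.K X4M.TE
open Vale.Agent.P004M.TE (Qb GQ Pt ga)
open Vale.Agent.P022E.GW (Ov Fb)
open Vale.Agent.P027M.S (Inert)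

variable [Pp] {W : WeierstrassCurve ℤ} {p : ℕ} {A B : ℤ} {u r s t : ℚ} {P : Ideal (𝓞 Qb)}
  (hD : 4 * (A : ℚ) ^ 3 + 27 * (B : ℚ) ^ 2 ≠ 0)

theorem mt_vec (g : GQ) (x : Tm (A : ℚ) B) :
    mt hD g *ᵥ (bs hD).equivFun x = (bs hD).equivFun (rho _ _ g x) :=
  LinearMap.toMatrix_mulVec_repr (bs hD) (bs hD) (rho _ _ g) x

theorem mt_one {g : GQ} : mt hD g = 1 ↔ ∀ (n : ℕ) (Q : Pt A B), pp ^ n • Q = 0 → ga g Q = Q := by
  refine ⟨fun e n Q k => ?_, fun k => ?_⟩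
  · obtain ⟨x, rfl⟩ := TM.exists_cp (hdiv hD) k
    have := mt_vec hD g x
    rw [e, one_mulVec] at this
    rw [← cp_rho, ← (bs hD).equivFun.injective this]
  · rw [mt_eq, show rho (A : ℚ) B g = 1 from LinearMap.ext fun x => TM.ext fun n =>
      k n _ (TM.pow_smul_cp x n), map_one]

theorem nd_pow (hp : p.Prime) (h2 : p ≠ pp) (n : ℕ) : ¬ p ∣ pp ^ n := fun d =>
  h2 ((Nat.prime_dvd_prime_iff_eq hp pp_prime).1 (hp.dvd_of_dvd_pow d))

theorem det_fb (o : Ov p P) (h2 : p ≠ pp) {φ : GQ} (k : Fb p P φ) : (mt hD φ).det = p :=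
  (det_cyc hD φ).trans (PadicInt.ext_of_toZModPow.1 fun n => by
    rw [map_natCast]
    exact (cz_mod n φ).trans (P022.H853.cyc_frob o.1 (nd_pow o.1 h2 n) ⟨P, o.2.1, o.2.2, k⟩))

theorem fix_cp {x : Tm (A : ℚ) B}
    (i : ∀ g, Inert P g → mt hD g *ᵥ (bs hD).equivFun x = (bs hD).equivFun x) (g : GQ)
    (k : Inert P g) (n : ℕ) : ga g (TM.cp n x) = TM.cp n x := by
  rw [← cp_rho, (bs hD).equivFun.injective ((mt_vec hD g x).symm.trans (i g k))]

variable (h : Md (Wq W) A B u r s t) (h2 : p ≠ pp) (o : Ov p P)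
include h h2 o

/-- **good reduction** -/
theorem gd (hg : ¬ (p : ℤ) ∣ W.Δ) : (∀ g, Inert P g → mt hD g = 1) ∧
    ∀ φ, Fb p P φ → (mt hD φ).trace = ((p + 1 - np W p : ℤ) : ℤ_[pp]) := by
  refine ⟨fun g k => (mt_one hD).2 fun n Q e => (good h o hg (nd_pow o.1 h2 n) e).1 g k,
    fun φ k => ?_⟩
  set S : ℤ := np W p - p - 1 with hS
  have e : rho (A : ℚ) B φ * rho (A : ℚ) B φ + S • rho (A : ℚ) B φ +
      (p : ℤ) • (1 : Module.End ℤ_[pp] (Tm A B)) = 0 := LinearMap.ext fun x => TM.ext fun n => by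
    simpa only [LinearMap.add_apply, LinearMap.smul_apply, Module.End.mul_apply, LinearMap.zero_apply,
      Module.End.one_apply, map_add, map_zsmul, cp_rho, map_zero] using
        (good h o hg (nd_pow o.1 h2 n) (TM.pow_smul_cp x n)).2 φ k
  have e' := congrArg (LinearMap.toMatrixAlgEquiv (bs hD)) e
  rw [map_add, map_add, map_mul, map_zsmul, map_zsmul, map_one, map_zero, ← mt_eq,
    ← Int.cast_smul_eq_zsmul ℤ_[pp], ← Int.cast_smul_eq_zsmul ℤ_[pp], Int.cast_natCast] at e'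
  have d := det_fb hD o h2 k
  have p0 : (p : ℤ_[pp]) ≠ 0 := Nat.cast_ne_zero.2 o.1.ne_zero
  rw [show (p : ℤ) + 1 - np W p = -S by rw [hS]; ring, Int.cast_neg]
  rcases mat_ch e' with c | c
  · exact c.1
  have h0 := congrFun (congrFun e' 0) 0
  generalize mt hD φ = M at *
  generalize M 0 0 = z at c
  subst c
  simp [trace_fin_two, det_fin_two] at h0 d ⊢
  exact mul_left_cancel₀ (a := z) (fun c => p0 (by rw [← d, c]; ring)) (by linear_combination h0 + d)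

/-- **multiplicative reduction** -/
theorem mu (hΔ : W.Δ ≠ 0) (hb : (p : ℤ) ∣ W.Δ) (hc : ¬ (p : ℤ) ∣ W.c₄) :
    (∃ g, Inert P g ∧ mt hD g ≠ 1) ∧ ∀ v : Fin 2 → ℤ_[pp], (∀ g, Inert P g → mt hD g *ᵥ v = v) →
      ∀ φ, Fb p P φ → mt hD φ *ᵥ v = ((p - np W p) * p : ℤ) • v := by
  obtain ⟨a, b⟩ := mult h o hΔ hb pp_prime h2 hc
  have K : ∀ v : Fin 2 → ℤ_[pp], (∀ g, Inert P g → mt hD g *ᵥ v = v) →
      ∀ φ, Fb p P φ → mt hD φ *ᵥ v = ((p - np W p) * p : ℤ) • v := fun v i φ f => by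
    obtain ⟨x, rfl⟩ := (bs hD).equivFun.surjective v
    rw [mt_vec, ← map_zsmul]
    exact congrArg _ (TM.ext fun n => (b (fun n => TM.cp n x) ⟨TM.cp_zero x, TM.cp_succ x⟩
      (fix_cp hD i) φ f n).trans (map_zsmul _ _ _).symm)
  refine ⟨by_contra fun c => ?_, K⟩
  push Not at c
  obtain ⟨φ, f⟩ := P022D.W.exists_phi o.1 o.2.1 o.2.2
  have d := det_fb hD o h2 f
  rw [show mt hD φ = (((p - np W p) * p : ℤ) : ℤ_[pp]) • 1 from ext_of_mulVec_single fun j => by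
    rw [K _ (fun g k => by rw [c g k, one_mulVec]) φ f, smul_mulVec, one_mulVec,
      Int.cast_smul_eq_zsmul], det_smul, det_one, mul_one, Fintype.card_fin] at d
  have e : ((p - np W p) * p : ℤ) ^ 2 = p := by exact_mod_cast d
  have := o.1.one_lt
  rcases a with a | a <;> rw [a] at e <;> nlinarith

/-- **additive reduction** -/
theorem no (hΔ : W.Δ ≠ 0) (hm : P014.GlobalMinimal (Wq W)) (hb : (p : ℤ) ∣ W.Δ)
    (hc : (p : ℤ) ∣ W.c₄) (v : Fin 2 → ℤ_[pp]) (i : ∀ g, Inert P g → mt hD g *ᵥ v = v) : v = 0 := by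
  obtain ⟨x, rfl⟩ := (bs hD).equivFun.surjective v
  rw [show x = 0 from TM.ext fun n => addv h o hΔ hb pp_prime h2 hm hc (R := fun n => TM.cp n x)
    ⟨TM.cp_zero x, TM.cp_succ x⟩ (fix_cp hD i) n, map_zero]

end Vale.Agent.P014U.Gt
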